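import Vale.Agent.P028W.Defs
import Vale.Agent.P031.SieveBase

/-!
Module OVC1: the sieve count.
-/

namespace Vale.Agent.P028W

open Finset MeasureTheory

theorem ovc1_pos {p : ℕ} (hp : p.Prime) : (0 : ℝ) < 1 - 1 / (p : ℝ) := by
  have h2 : (1 : ℝ) < (p : ℝ) := by exact_mod_cast hp.one_lt
  have h3 : 1 / (p : ℝ) < 1 := by
    rw [div_lt_one (by linarith)]
    exact h2
  linarith

theorem ovc1_le_one (p : ℕ) : 1 - 1 / (p : ℝ) ≤ 1 := by
  have h3 : 0 ≤ 1 / (p : ℝ) := by positivity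
  linarith

theorem ovc1_one_le {p : ℕ} (hp : p.Prime) : (1 : ℝ) ≤ (1 - 1 / (p : ℝ))⁻¹ :=
  (one_le_inv₀ (ovc1_pos hp)).2 (ovc1_le_one p)

theorem ovc1_exp {p : ℕ} (hp : p.Prime) : (1 - 1 / (p : ℝ))⁻¹ ≤ Real.exp (2 / p) := by
  have h2 : (2 : ℝ) ≤ (p : ℝ) := by exact_mod_cast hp.two_le
  have h0 : (0 : ℝ) < p := by linarith
  have h3 : 1 / (p : ℝ) ≤ 1 / 2 := by
    exact one_div_le_one_div_of_le (by norm_num) h2
  have h4 : 0 < 1 / (p : ℝ) := by positivity
  have h5 : (1 - 1 / (p : ℝ))⁻¹ ≤ 1 + 2 * (1 / (p : ℝ)) := by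
    rw [inv_le_iff_one_le_mul₀ (ovc1_pos hp)]
    nlinarith
  have h6 := Real.add_one_le_exp (2 / (p : ℝ))
  have h7 : 2 / (p : ℝ) = 2 * (1 / (p : ℝ)) := by ring
  rw [h7] at h6 ⊢
  linarith

/-- telescoping product -/
theorem ovc1_tel (z : ℕ) (hz : 1 ≤ z) :
    ∏ j ∈ Finset.Icc 2 z, (1 - 1 / (j : ℝ))⁻¹ = z := by
  induction z, hz using Nat.le_induction with
  | base => simp
  | succ n hn ih =>
    rw [← Nat.succ_eq_add_one, Nat.succ_eq_add_one,
      show Finset.Icc 2 (n + 1) = insert (n + 1) (Finset.Icc 2 n) from by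
        ext j; simp only [Finset.mem_Icc, Finset.mem_insert]; omega,
      Finset.prod_insert (by simp), ih]
    have h0 : (0 : ℝ) < n := by exact_mod_cast hn
    have h1 : (1 - 1 / ((n + 1 : ℕ) : ℝ)) = n / (n + 1) := by
      push_cast
      field_simp
      ring
    rw [h1]
    push_cast
    field_simp

theorem ovc1_one_le_prod (s : Finset ℕ) (F : ℕ → ℝ) (h : ∀ p ∈ s, 1 ≤ F p) :
    1 ≤ ∏ p ∈ s, F p := by
  have := Finset.prod_le_prod (s := s) (f := fun _ => (1 : ℝ)) (g := F)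
    (fun p _ => zero_le_one) h
  simpa using this

theorem ovc1_prod (z : ℕ) (hz : 1 ≤ z) (n : ℕ) :
    ∏ p ∈ n.primeFactors, (1 - 1 / (p : ℝ))⁻¹ ≤ z * Real.exp (2 * sL z n) := by
  have hpr : ∀ p ∈ n.primeFactors, p.Prime := fun p hp => Nat.prime_of_mem_primeFactors hp
  rw [← Finset.prod_filter_mul_prod_filter_not n.primeFactors (fun p : ℕ => (z : ℝ) < (p : ℝ)),
    mul_comm]
  refine mul_le_mul ?_ ?_ ?_ (by positivity)
  · refine le_trans ?_ (le_of_eq (ovc1_tel z hz))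
    have hsub : n.primeFactors.filter (fun p : ℕ => ¬ (z : ℝ) < (p : ℝ)) ⊆ Finset.Icc 2 z := by
      intro p hp
      rw [Finset.mem_filter] at hp
      rw [Finset.mem_Icc]
      refine ⟨(hpr p hp.1).two_le, ?_⟩
      have := not_lt.1 hp.2
      exact_mod_cast this
    rw [← Finset.prod_sdiff hsub]
    have h1 : 1 ≤ ∏ p ∈ (Finset.Icc 2 z) \ (n.primeFactors.filter
        (fun p : ℕ => ¬ (z : ℝ) < (p : ℝ))), (1 - 1 / (p : ℝ))⁻¹ := by
      refine ovc1_one_le_prod _ _ fun p hp => ?_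
      have h2 := (Finset.mem_Icc.1 (Finset.mem_sdiff.1 hp).1).1
      have h3 : (2 : ℝ) ≤ (p : ℝ) := by exact_mod_cast h2
      have h4 : 0 < 1 / (p : ℝ) := by positivity
      have h5 : 1 / (p : ℝ) ≤ 1 / 2 := one_div_le_one_div_of_le (by norm_num) h3
      exact (one_le_inv₀ (by linarith)).2 (by linarith)
    have h0 : 0 ≤ ∏ p ∈ n.primeFactors.filter (fun p : ℕ => ¬ (z : ℝ) < (p : ℝ)),
        (1 - 1 / (p : ℝ))⁻¹ :=
      Finset.prod_nonneg fun p hp =>
        (zero_le_one.trans (ovc1_one_le (hpr p (Finset.mem_filter.1 hp).1)))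
    calc _ = 1 * ∏ p ∈ n.primeFactors.filter (fun p : ℕ => ¬ (z : ℝ) < (p : ℝ)),
        (1 - 1 / (p : ℝ))⁻¹ := (one_mul _).symm
      _ ≤ _ := mul_le_mul_of_nonneg_right h1 h0
  · unfold sL
    rw [Finset.mul_sum, Real.exp_sum]
    refine Finset.prod_le_prod (fun p hp => ?_) (fun p hp => ?_)
    · exact (zero_le_one.trans (ovc1_one_le (hpr p (Finset.mem_filter.1 hp).1)))
    · have := ovc1_exp (hpr p (Finset.mem_filter.1 hp).1)
      rw [show 2 * (1 / (p : ℝ)) = 2 / p by ring]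
      exact this
  · exact Finset.prod_nonneg fun p hp =>
      (zero_le_one.trans (ovc1_one_le (hpr p (Finset.mem_filter.1 hp).1)))

/-- periodic count -/
theorem ovc1_per (q : ℕ → Prop) [DecidablePred q] (g : ℕ) (hq : Function.Periodic q g) (L : ℕ) :
    ((Finset.Ioc 0 (g * L)).filter q).card = L * ((Finset.range g).filter q).card := by
  have h1 : ∀ N, Finset.Ioc 0 N = Finset.Ico 1 (1 + N) := by
    intro N; ext j; simp only [Finset.mem_Ioc, Finset.mem_Ico]; omega
  rw [h1]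
  induction L with
  | zero => simp
  | succ L ih =>
    have h2 : Finset.Ico 1 (1 + g * (L + 1)) =
        Finset.Ico 1 (1 + g * L) ∪ Finset.Ico (1 + g * L) (1 + g * L + g) := by
      rw [Finset.Ico_union_Ico_eq_Ico (by omega) (by omega)]
      congr 1
      ring
    rw [h2, Finset.filter_union, Finset.card_union_of_disjoint, ih,
      Nat.filter_Ico_card_eq_of_periodic _ _ _ hq, Nat.count_eq_card_filter_range]
    · ring
    · refine Finset.disjoint_filter_filter ?_
      rw [Finset.disjoint_left]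
      intro j hj hj'
      rw [Finset.mem_Ico] at hj hj'
      omega

theorem ovc1_crt (P : Finset ℕ) (hP : ∀ p ∈ P, p.Prime) (W : ℕ → Finset ℕ)
    (hW : ∀ p ∈ P, W p ⊆ range p) (g : ℕ) (hg : ∀ p ∈ P, p ∣ g) :
    (((Finset.range g).filter (fun k => ∀ p ∈ P, k % p ∈ W p)).card : ℝ)
      ≤ g * ∏ p ∈ P, ((W p).card : ℝ) / p := by
  have hper : Function.Periodic (fun k => ∀ p ∈ P, k % p ∈ W p) g := by
    intro k
    refine propext (forall₂_congr fun p hp => ?_)
    obtain ⟨m, hm⟩ := hg p hp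
    rw [hm, Nat.add_mul_mod_self_left]
  set c : ℝ := (((Finset.range g).filter (fun k => ∀ p ∈ P, k % p ∈ W p)).card : ℝ) with hc
  set C : ℝ := ∏ p ∈ P, ((W p).card : ℝ) with hC
  have key : ∀ L : ℕ, (L : ℝ) * (c - g * ∏ p ∈ P, ((W p).card : ℝ) / p) ≤ C := by
    intro L
    have h1 := P031.Pure.count_all W (g * L) P hP hW
    rw [ovc1_per _ g hper L] at h1
    have h2 := (abs_le.1 h1).2
    push_cast at h2
    rw [← hc] at h2
    have h3 : (L : ℝ) * (c - g * ∏ p ∈ P, ((W p).card : ℝ) / p)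
        = L * c - g * L * ∏ p ∈ P, ((W p).card : ℝ) / p := by ring
    rw [h3]
    exact h2
  by_contra hcon
  have hpos : 0 < c - g * ∏ p ∈ P, ((W p).card : ℝ) / p := by
    have := not_le.1 hcon
    linarith
  obtain ⟨L, hL⟩ := Archimedean.arch (C + 1) hpos
  have h4 := key L
  rw [nsmul_eq_mul] at hL
  linarith

/-- the set of admissible residues -/
theorem ovc1_mod (B : ℕ) (A c : ℤ) (u : ℕ) (p k : ℕ) :
    ((p : ℤ) ∣ (B : ℤ) * (c + k * u) + A) ↔
      ((p : ℤ) ∣ (B : ℤ) * (c + ((k % p : ℕ) : ℤ) * u) + A) := by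
  obtain ⟨m, hm⟩ : ∃ m : ℤ, (k : ℤ) = ((k % p : ℕ) : ℤ) + p * m :=
    ⟨((k / p : ℕ) : ℤ), by
      have := Nat.mod_add_div k p
      exact_mod_cast this.symm⟩
  generalize ((k % p : ℕ) : ℤ) = k' at hm ⊢
  rw [hm, show (B : ℤ) * (c + (k' + p * m) * u) + A
      = (p : ℤ) * ((B : ℤ) * m * u) + ((B : ℤ) * (c + k' * u) + A) by ring]
  exact dvd_add_right (Dvd.intro _ rfl)

/-- the forbidden residue -/
theorem ovc1_root {p : ℕ} (hp : p.Prime) (B : ℕ) (A c : ℤ) (u : ℕ) (hB : ¬ p ∣ B) (hu : ¬ p ∣ u) :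
    ∃ k ∈ Finset.range p, (p : ℤ) ∣ (B : ℤ) * (c + (k : ℤ) * u) + A := by
  have hp' : Prime (p : ℤ) := Nat.prime_iff_prime_int.1 hp
  have hα : ¬ ((p : ℤ) ∣ (B : ℤ) * u) := by
    intro h
    rcases hp'.dvd_or_dvd h with h | h
    · exact hB (Int.natCast_dvd_natCast.1 h)
    · exact hu (Int.natCast_dvd_natCast.1 h)
  obtain ⟨a, b, hab⟩ := (hp'.irreducible.coprime_iff_not_dvd).2 hα
  have hp0 : (0 : ℤ) < p := by exact_mod_cast hp.pos
  set β : ℤ := (B : ℤ) * c + A with hβ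
  refine ⟨((-b * β) % p).toNat, ?_, ?_⟩
  · rw [Finset.mem_range]
    have h1 := Int.emod_lt_of_pos (-b * β) hp0
    have h2 := Int.emod_nonneg (-b * β) hp0.ne'
    omega
  · rw [Int.toNat_of_nonneg (Int.emod_nonneg _ hp0.ne')]
    have h3 : (-b * β) % p = -b * β - p * (-b * β / p) := by
      have := Int.emod_add_mul_ediv (-b * β) p
      linarith
    rw [h3]
    refine ⟨a * β - (B : ℤ) * u * (-b * β / p), ?_⟩
    linear_combination (-β) * hab

/-- the factor of the prime `p` on the right -/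
noncomputable def ovc1R (B g u v n p : ℕ) : ℝ :=
  (if p ∈ (g * u).primeFactors.filter (fun p => ¬ p ∣ B) then (1 - 1 / (p : ℝ)) else 1) *
  (if p ∈ (g * v).primeFactors.filter (fun p => ¬ p ∣ B) then (1 - 1 / (p : ℝ)) else 1) *
  ((if p ∈ (u * v).primeFactors then (1 - 1 / (p : ℝ))⁻¹ else 1) *
  (if p ∈ n.primeFactors then (1 - 1 / (p : ℝ))⁻¹ else 1))

theorem ovc1_factor (B : ℕ) (A : ℤ) (g u v : ℕ)
    (hg : 0 < g) (hu : 0 < u) (hv : 0 < v) (huv : Nat.Coprime u v) (x y : ℤ)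
    (hxy : (v : ℤ) * x - (u : ℤ) * y = 1) (t : ℤ) (ht : ((v : ℤ) - u) * A + t * B ≠ 0)
    (p : ℕ) (hp : p.Prime) :
    (if p ∈ g.primeFactors.filter (fun p => ¬ p ∣ B) then
      ((((Finset.range p).filter (fun k : ℕ => ¬ ((p : ℤ) ∣ (B : ℤ) * (t * x + k * u) + A) ∧
        ¬ ((p : ℤ) ∣ (B : ℤ) * (t * y + k * v) + A))).card : ℕ) : ℝ) / p else 1) ≤
      ovc1R B g u v (((v : ℤ) - u) * A + t * B).natAbs p := by
  set n := (((v : ℤ) - u) * A + t * B).natAbs with hn
  have hn0 : n ≠ 0 := Int.natAbs_ne_zero.2 ht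
  have h2 : (2 : ℝ) ≤ (p : ℝ) := by exact_mod_cast hp.two_le
  have hp0 : (0 : ℝ) < p := by linarith
  have hpos := ovc1_pos hp
  have hinv := ovc1_one_le hp
  have hmul : (1 - 1 / (p : ℝ)) * (1 - 1 / (p : ℝ))⁻¹ = 1 := mul_inv_cancel₀ hpos.ne'
  have hnotboth : ¬ (p ∣ u ∧ p ∣ v) := fun h =>
    hp.one_lt.ne' (Nat.dvd_one.1 (by rw [← huv]; exact Nat.dvd_gcd h.1 h.2))
  unfold ovc1R
  simp only [Finset.mem_filter, Nat.mem_primeFactors, hp, true_and, ne_eq, hn0,
    not_false_eq_true, and_true, hg.ne', hu.ne', hv.ne', mul_eq_zero, or_self, hp.dvd_mul]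
  by_cases hB : p ∣ B
  · simp only [hB, not_true_eq_false, and_false, if_false, one_mul]
    have e1 : (1 : ℝ) ≤ (if p ∣ u ∨ p ∣ v then (1 - 1 / (p : ℝ))⁻¹ else 1) := by
      split_ifs <;> [exact hinv; exact le_rfl]
    have e2 : (1 : ℝ) ≤ (if p ∣ n then (1 - 1 / (p : ℝ))⁻¹ else 1) := by
      split_ifs <;> [exact hinv; exact le_rfl]
    nlinarith
  simp only [hB, not_false_eq_true, and_true]
  by_cases hpg : p ∣ g
  · simp only [hpg, true_or, if_true]
    set s := (Finset.range p).filter (fun k : ℕ => ¬ ((p : ℤ) ∣ (B : ℤ) * (t * x + k * u) + A) ∧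
        ¬ ((p : ℤ) ∣ (B : ℤ) * (t * y + k * v) + A)) with hs
    -- at most `p - 1`
    have hc1 : (s.card : ℝ) ≤ p - 1 := by
      have : ∃ k ∈ Finset.range p, k ∉ s := by
        by_cases hpu : p ∣ u
        · have hpv : ¬ p ∣ v := fun h => hnotboth ⟨hpu, h⟩
          obtain ⟨k, hk, hk2⟩ := ovc1_root hp B A (t * y) v hB hpv
          exact ⟨k, hk, fun h => (Finset.mem_filter.1 h).2.2 hk2⟩
        · obtain ⟨k, hk, hk2⟩ := ovc1_root hp B A (t * x) u hB hpu
          exact ⟨k, hk, fun h => (Finset.mem_filter.1 h).2.1 hk2⟩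
      obtain ⟨k, hk, hks⟩ := this
      have h3 : s ⊆ (Finset.range p).erase k := by
        intro j hj
        rw [Finset.mem_erase]
        exact ⟨fun h => hks (h ▸ hj), (Finset.mem_filter.1 hj).1⟩
      have h4 := Finset.card_le_card h3
      rw [Finset.card_erase_of_mem hk, Finset.card_range] at h4
      have h5 : s.card + 1 ≤ p := by have := hp.one_lt; omega
      have h6 : (s.card : ℝ) + 1 ≤ p := by exact_mod_cast h5
      linarith
    have hd1 : (s.card : ℝ) / p ≤ 1 - 1 / (p : ℝ) := by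
      rw [div_le_iff₀ hp0]
      have : (1 - 1 / (p : ℝ)) * p = p - 1 := by field_simp
      rw [this]
      exact hc1
    by_cases huv' : p ∣ u ∨ p ∣ v
    · simp only [huv', if_true]
      have e2 : (1 : ℝ) ≤ (if p ∣ n then (1 - 1 / (p : ℝ))⁻¹ else 1) := by
        split_ifs <;> [exact hinv; exact le_rfl]
      calc (s.card : ℝ) / p ≤ (1 - 1 / (p : ℝ)) * 1 := by rw [mul_one]; exact hd1
        _ ≤ (1 - 1 / (p : ℝ)) * (if p ∣ n then (1 - 1 / (p : ℝ))⁻¹ else 1) :=
            mul_le_mul_of_nonneg_left e2 hpos.le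
        _ = (1 - 1 / (p : ℝ)) * (1 - 1 / (p : ℝ)) *
            ((1 - 1 / (p : ℝ))⁻¹ * (if p ∣ n then (1 - 1 / (p : ℝ))⁻¹ else 1)) := by
            rw [← mul_assoc, mul_assoc (1 - 1 / (p : ℝ)) (1 - 1 / (p : ℝ)), hmul, mul_one]
    · simp only [huv', if_false, one_mul]
      by_cases hpn : p ∣ n
      · simp only [hpn, if_true]
        rw [mul_assoc, hmul, mul_one]
        exact hd1
      · simp only [hpn, if_false, mul_one]
        rw [not_or] at huv'
        obtain ⟨k1, hk1, hr1⟩ := ovc1_root hp B A (t * x) u hB huv'.1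
        obtain ⟨k2, hk2, hr2⟩ := ovc1_root hp B A (t * y) v hB huv'.2
        have hne : k1 ≠ k2 := by
          rintro rfl
          apply hpn
          rw [hn, ← Int.natCast_dvd]
          have h5 := dvd_sub (hr1.mul_left (v : ℤ)) (hr2.mul_left (u : ℤ))
          have h6 : (v : ℤ) * ((B : ℤ) * (t * x + k1 * u) + A)
              - (u : ℤ) * ((B : ℤ) * (t * y + k1 * v) + A) = ((v : ℤ) - u) * A + t * B := by
            linear_combination (B : ℤ) * t * hxy
          rwa [h6] at h5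
        have h3 : s ⊆ ((Finset.range p).erase k1).erase k2 := by
          intro j hj
          have hj' := Finset.mem_filter.1 hj
          rw [Finset.mem_erase, Finset.mem_erase]
          refine ⟨fun h => ?_, fun h => ?_, hj'.1⟩
          · subst h; exact hj'.2.2 hr2
          · subst h; exact hj'.2.1 hr1
        have h4 := Finset.card_le_card h3
        rw [Finset.card_erase_of_mem (Finset.mem_erase.2 ⟨hne.symm, hk2⟩),
          Finset.card_erase_of_mem hk1, Finset.card_range] at h4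
        have h5 : s.card + 2 ≤ p := by have := hp.two_le; omega
        have h6 : (s.card : ℝ) + 2 ≤ p := by exact_mod_cast h5
        rw [div_le_iff₀ hp0]
        have h7 : (1 - 1 / (p : ℝ)) * (1 - 1 / (p : ℝ)) * p = p - 2 + 1 / p := by
          field_simp
          ring
        rw [h7]
        have h8 : 0 ≤ 1 / (p : ℝ) := by positivity
        linarith
  · simp only [hpg, false_or, if_false]
    have e2 : (1 : ℝ) ≤ (if p ∣ n then (1 - 1 / (p : ℝ))⁻¹ else 1) := by
      split_ifs <;> [exact hinv; exact le_rfl]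
    by_cases hpu : p ∣ u
    · have hpv : ¬ p ∣ v := fun h => hnotboth ⟨hpu, h⟩
      simp only [hpu, hpv, if_true, if_false, true_or, mul_one]
      rw [← mul_assoc, hmul, one_mul]
      exact e2
    · by_cases hpv : p ∣ v
      · simp only [hpu, hpv, if_true, if_false, or_true, one_mul]
        rw [← mul_assoc, hmul, one_mul]
        exact e2
      · simp only [hpu, hpv, if_false, or_self, one_mul]
        exact e2

theorem ovc_count_pf (B : ℕ) (A : ℤ) (g u v : ℕ)
    (hg : 0 < g) (hu : 0 < u) (hv : 0 < v) (huv : Nat.Coprime u v) (x y : ℤ)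
    (hxy : (v : ℤ) * x - (u : ℤ) * y = 1) (t : ℤ) (ht : ((v : ℤ) - u) * A + t * B ≠ 0)
    (z : ℕ) (hz : 1 ≤ z) (P : ℕ → Prop) [DecidablePred P]
    (hP : ∀ k, P k → GT B A (g * u) (t * x + k * u) ∧ GT B A (g * v) (t * y + k * v)) :
    ((((Finset.range g).filter P).card : ℕ) : ℝ) ≤
      g * (z : ℝ) ^ 2 * WT B (g * u) * WT B (g * v) *
        Real.exp (2 * (sL z (u * v) + sL z (((v : ℤ) - u) * A + t * B).natAbs)) := by
  classical
  set n := (((v : ℤ) - u) * A + t * B).natAbs with hn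
  set P0 := g.primeFactors.filter (fun p => ¬ p ∣ B) with hP0
  have hP0p : ∀ p ∈ P0, p.Prime := fun p hp =>
    Nat.prime_of_mem_primeFactors (Finset.mem_filter.1 hp).1
  have hP0g : ∀ p ∈ P0, p ∣ g := fun p hp =>
    Nat.dvd_of_mem_primeFactors (Finset.mem_filter.1 hp).1
  let W : ℕ → Finset ℕ := fun p => (Finset.range p).filter (fun k : ℕ =>
    ¬ ((p : ℤ) ∣ (B : ℤ) * (t * x + k * u) + A) ∧ ¬ ((p : ℤ) ∣ (B : ℤ) * (t * y + k * v) + A))
  have hW : ∀ p ∈ P0, W p ⊆ Finset.range p := fun p _ => Finset.filter_subset _ _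
  have hcrt := ovc1_crt P0 hP0p W hW g hP0g
  have h1 : (((Finset.range g).filter P).card : ℝ) ≤
      (((Finset.range g).filter (fun k => ∀ p ∈ P0, k % p ∈ W p)).card : ℝ) := by
    have : ((Finset.range g).filter P) ⊆
        ((Finset.range g).filter (fun k => ∀ p ∈ P0, k % p ∈ W p)) := by
      intro k hk
      rw [Finset.mem_filter] at hk ⊢
      refine ⟨hk.1, fun p hp => ?_⟩
      obtain ⟨a1, a2⟩ := hP k hk.2
      have hpp := hP0p p hp
      have hpg := hP0g p hp
      show k % p ∈ (Finset.range p).filter _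
      rw [Finset.mem_filter, Finset.mem_range]
      refine ⟨Nat.mod_lt _ hpp.pos, ?_, ?_⟩
      · rw [← ovc1_mod]
        exact a1 p hpp (hpg.mul_right u)
      · rw [← ovc1_mod]
        exact a2 p hpp (hpg.mul_right v)
    exact_mod_cast Finset.card_le_card this
  -- all primes
  set T := (g * u).primeFactors ∪ (g * v).primeFactors ∪ (u * v).primeFactors ∪ n.primeFactors
    with hT
  have hTp : ∀ p ∈ T, p.Prime := by
    intro p hp
    simp only [hT, Finset.mem_union] at hp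
    rcases hp with ((hp | hp) | hp) | hp <;> exact Nat.prime_of_mem_primeFactors hp
  have hext : ∀ (s : Finset ℕ) (F : ℕ → ℝ), s ⊆ T →
      ∏ p ∈ s, F p = ∏ p ∈ T, (if p ∈ s then F p else 1) := by
    intro s F hs
    rw [← Finset.prod_filter]
    congr 1
    ext p
    rw [Finset.mem_filter]
    exact ⟨fun h => ⟨hs h, h⟩, fun h => h.2⟩
  have hsub0 : P0 ⊆ T := by
    intro p hp
    have h3 : p ∈ (g * u).primeFactors := by
      rw [Nat.mem_primeFactors]
      exact ⟨hP0p p hp, (hP0g p hp).mul_right u, (Nat.mul_pos hg hu).ne'⟩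
    simp only [hT, Finset.mem_union]
    exact Or.inl (Or.inl (Or.inl h3))
  have hsub1 : (g * u).primeFactors.filter (fun p => ¬ p ∣ B) ⊆ T := by
    intro p hp
    simp only [hT, Finset.mem_union]
    exact Or.inl (Or.inl (Or.inl (Finset.mem_filter.1 hp).1))
  have hsub2 : (g * v).primeFactors.filter (fun p => ¬ p ∣ B) ⊆ T := by
    intro p hp
    simp only [hT, Finset.mem_union]
    exact Or.inl (Or.inl (Or.inr (Finset.mem_filter.1 hp).1))
  have hsub3 : (u * v).primeFactors ⊆ T := by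
    intro p hp
    simp only [hT, Finset.mem_union]
    exact Or.inl (Or.inr hp)
  have hsub4 : n.primeFactors ⊆ T := by
    intro p hp
    simp only [hT, Finset.mem_union]
    exact Or.inr hp
  have h2 : ∏ p ∈ P0, ((W p).card : ℝ) / p ≤ WT B (g * u) * WT B (g * v) *
      ((∏ p ∈ (u * v).primeFactors, (1 - 1 / (p : ℝ))⁻¹) *
        ∏ p ∈ n.primeFactors, (1 - 1 / (p : ℝ))⁻¹) := by
    unfold WT
    rw [hext P0 _ hsub0, hext _ _ hsub1, hext _ _ hsub2, hext _ _ hsub3, hext _ _ hsub4,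
      ← Finset.prod_mul_distrib, ← Finset.prod_mul_distrib, ← Finset.prod_mul_distrib]
    refine Finset.prod_le_prod (fun p hp => ?_) (fun p hp => ?_)
    · split_ifs
      · positivity
      · exact zero_le_one
    · exact ovc1_factor B A g u v hg hu hv huv x y hxy t ht p (hTp p hp)
  have hWT0 : ∀ q, 0 ≤ WT B q := by
    intro q
    unfold WT
    exact Finset.prod_nonneg fun p hp =>
      (ovc1_pos (Nat.prime_of_mem_primeFactors (Finset.mem_filter.1 hp).1)).le
  have h3 : ((∏ p ∈ (u * v).primeFactors, (1 - 1 / (p : ℝ))⁻¹) *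
        ∏ p ∈ n.primeFactors, (1 - 1 / (p : ℝ))⁻¹) ≤
      (z * Real.exp (2 * sL z (u * v))) * (z * Real.exp (2 * sL z n)) := by
    refine mul_le_mul (ovc1_prod z hz _) (ovc1_prod z hz _) ?_ (by positivity)
    exact Finset.prod_nonneg fun p hp =>
      (zero_le_one.trans (ovc1_one_le (Nat.prime_of_mem_primeFactors hp)))
  have hg0 : (0 : ℝ) ≤ g := Nat.cast_nonneg g
  calc (((Finset.range g).filter P).card : ℝ)
      ≤ g * ∏ p ∈ P0, ((W p).card : ℝ) / p := h1.trans hcrt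
    _ ≤ g * (WT B (g * u) * WT B (g * v) *
      ((z * Real.exp (2 * sL z (u * v))) * (z * Real.exp (2 * sL z n)))) :=
        mul_le_mul_of_nonneg_left (h2.trans (mul_le_mul_of_nonneg_left h3
          (mul_nonneg (hWT0 _) (hWT0 _)))) hg0
    _ = g * (z : ℝ) ^ 2 * WT B (g * u) * WT B (g * v) *
        Real.exp (2 * (sL z (u * v) + sL z n)) := by
        rw [mul_add, Real.exp_add]
        ring

end Vale.Agent.P028W
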