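import Vale.Agent.P028W.Defs
import Vale.Agent.P028W.OVCcount
import Vale.Agent.P028W.A1
import Vale.Agent.P028W.SL

/-!
Module OVC: overlap with the sieve on the common factor. `q = g u`, `r = g v`. For each `t ∈ Ts` the pairs
`(a,b)`, `v a - u b = t` are `(t x + k u, t y + k v)`, `k mod g`; if `nt = 0` none is admissible (`u > 1`,
see OVT); the number of `k mod g` with `a, b` admissible is (CRT over `p ∣ g`; ignore `p ∤ g`)
`≤ g ∏_{p ∣ g, p ∤ B, p ∤ uv} (1 - 2/p + [p ∣ nt]/p) ∏_{p ∣ g, p ∤ B, p ∣ uv} (1 - 1/p)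
 ≤ g WT(q) WT(r) ∏_{p ∣ uv} (1-1/p)^(-1) ∏_{p ∣ nt} (1-1/p)^(-1)`; primes `p ≤ z` contribute at most
`(∏_{2≤n≤z} n/(n-1))^2 ≤ z^2`, the others `(1-1/p)^(-1) ≤ exp(2/p)`. Each pair contributes an
intersection `≤ 2 min(ψ(q)/q, ψ(r)/r)` and `g min(ψ(q)/q, ψ(r)/r) = ψ(q)ψ(r)/Dm`. Measure part: see
Vale/Agent/P028EV/Pair.lean (`pair_ov`), sieve part: Gdc.lean, Two.lean.
-/

namespace Vale.Agent.P028W

open Finset MeasureTheory
open Vale.Agent.P028EV (q1 r1 Del hh Ts Bd Ad Nd)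
open Vale.Agent.P028KM (w mu Dm Bl FF MN Sb ex cl OK KO th Th)

/-- the sieve count -/
theorem ovc_count (B : ℕ) (A : ℤ) (hB : 0 < B) (hco : IsCoprime A (B : ℤ)) (g u v : ℕ)
    (hg : 0 < g) (hu : 0 < u) (hv : 0 < v) (huv : Nat.Coprime u v) (x y : ℤ)
    (hxy : (v : ℤ) * x - (u : ℤ) * y = 1) (t : ℤ) (ht : ((v : ℤ) - u) * A + t * B ≠ 0)
    (z : ℕ) (hz : 1 ≤ z) (P : ℕ → Prop) [DecidablePred P]
    (hP : ∀ k, P k → GT B A (g * u) (t * x + k * u) ∧ GT B A (g * v) (t * y + k * v)) :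
    ((((Finset.range g).filter P).card : ℕ) : ℝ) ≤
      g * (z : ℝ) ^ 2 * WT B (g * u) * WT B (g * v) *
        Real.exp (2 * (sL z (u * v) + sL z (((v : ℤ) - u) * A + t * B).natAbs)) :=
  ovc_count_pf B A g u v hg hu hv huv x y hxy t ht z hz P hP

/-- length of the set of `X` with `|q X - a - γ| < ε` -/
theorem OVC2_vol (q : ℕ) (hq : 0 < q) (a : ℤ) (γ ε : ℝ) :
    volume {X : ℝ | |(q : ℝ) * X - a - γ| < ε} ≤ ENNReal.ofReal (2 * ε / q) := by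
  have hq' : (0 : ℝ) < q := by exact_mod_cast hq
  have hsub : {X : ℝ | |(q : ℝ) * X - a - γ| < ε} ⊆
      Set.Ioo ((a + γ - ε) / q) ((a + γ + ε) / q) := by
    intro X hX
    have hX' : |(q : ℝ) * X - a - γ| < ε := hX
    rw [abs_lt] at hX'
    constructor
    · rw [div_lt_iff₀ hq']; linarith [hX'.1]
    · rw [lt_div_iff₀ hq']; linarith [hX'.2]
  refine (measure_mono hsub).trans ?_
  rw [Real.volume_Ioo]
  refine le_of_eq ?_
  congr 1
  ring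

/-- folding into one period -/
theorem OVC2_fold (I : Set ℝ) (hI : MeasurableSet I) (x0 : ℝ) :
    volume (⋃ j : ℤ, {x : ℝ | x + j ∈ I ∧ x ∈ Set.Ico x0 (x0 + 1)}) ≤ volume I := by
  refine (measure_iUnion_le _).trans ?_
  have h1 : ∀ j : ℤ, volume {x : ℝ | x + j ∈ I ∧ x ∈ Set.Ico x0 (x0 + 1)} =
      volume (I ∩ Set.Ico (x0 + (j : ℝ)) (x0 + j + 1)) := by
    intro j
    rw [← measure_preimage_add_right volume (j : ℝ) (I ∩ Set.Ico (x0 + (j : ℝ)) (x0 + j + 1))]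
    congr 1
    ext x
    constructor
    · rintro ⟨a, b, c⟩
      exact ⟨a, by linarith, by linarith⟩
    · rintro ⟨a, b, c⟩
      exact ⟨a, by linarith, by linarith⟩
  simp_rw [h1]
  rw [← measure_iUnion]
  · exact measure_mono (Set.iUnion_subset fun j => Set.inter_subset_left)
  · intro i j hij
    exact (Set.pairwise_disjoint_Ico_add_intCast x0 hij).mono Set.inter_subset_right
      Set.inter_subset_right
  · exact fun j => hI.inter measurableSet_Ico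

theorem OVC2_GT (B : ℕ) (A : ℤ) (q : ℕ) (a j : ℤ) (h : GT B A q (a + j * (q : ℤ))) :
    GT B A q a := by
  intro p hp hpq hd
  refine h p hp hpq ?_
  have e : (B : ℤ) * (a + j * (q : ℤ)) + A = ((B : ℤ) * a + A) + B * j * (q : ℤ) := by ring
  rw [e]
  exact dvd_add hd (dvd_mul_of_dvd_right (Int.natCast_dvd_natCast.2 hpq) _)

open Classical in
theorem OVC2_main (γ : ℝ) (B : ℕ) (A : ℤ) (ψ : ℕ → ℝ) (g u v : ℕ) (hg : 0 < g) (hu : 0 < u)
    (hv : 0 < v) (h0 : 0 ≤ ψ (g * u)) (h0' : 0 ≤ ψ (g * v)) (x y : ℤ)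
    (hxy : (v : ℤ) * x - (u : ℤ) * y = 1) (P : ℤ → ℕ → Prop)
    (hP : ∀ t k, P t k ↔ (GT B A (g * u) (t * x + k * u) ∧ GT B A (g * v) (t * y + k * v)))
    (mn : ℝ) (hmn : mn = min (ψ (g * u) / ((g * u : ℕ) : ℝ)) (ψ (g * v) / ((g * v : ℕ) : ℝ)))
    (T : Finset ℤ)
    (hT : T = Ts γ ((v : ℤ) - (u : ℤ)) ((v : ℝ) * ψ (g * u) + (u : ℝ) * ψ (g * v)))
    (x0 ℓ : ℝ) (hℓ1 : ℓ ≤ 1) :
    (volume (AT γ B A ψ (g * u) ∩ AT γ B A ψ (g * v) ∩ Set.Ico x0 (x0 + ℓ))).toReal ≤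
      2 * mn * ∑ t ∈ T, (((Finset.range g).filter (P t)).card : ℝ) := by
  have hq : 0 < g * u := Nat.mul_pos hg hu
  have hr : 0 < g * v := Nat.mul_pos hg hv
  have hu' : (0 : ℝ) < u := by exact_mod_cast hu
  have hv' : (0 : ℝ) < v := by exact_mod_cast hv
  have hgZ : (0 : ℤ) < g := by exact_mod_cast hg
  obtain ⟨K, hK⟩ : ∃ K : ℤ → Finset ℕ, ∀ t, K t = (Finset.range g).filter (P t) :=
    ⟨_, fun _ => rfl⟩
  have hmn0 : 0 ≤ mn := by
    rw [hmn]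
    exact le_min (div_nonneg h0 (Nat.cast_nonneg _)) (div_nonneg h0' (Nat.cast_nonneg _))
  obtain ⟨I, hI⟩ : ∃ I : (Σ _ : ℤ, ℕ) → Set ℝ, ∀ p, I p =
    {X : ℝ | |((g * u : ℕ) : ℝ) * X - ((p.1 * x + p.2 * u : ℤ) : ℝ) - γ| < ψ (g * u)} ∩
    {X : ℝ | |((g * v : ℕ) : ℝ) * X - ((p.1 * y + p.2 * v : ℤ) : ℝ) - γ| < ψ (g * v)} :=
      ⟨_, fun _ => rfl⟩
  have hIm : ∀ p, MeasurableSet (I p) := by
    intro p
    rw [hI]
    exact ((isOpen_lt (by fun_prop) continuous_const).inter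
      (isOpen_lt (by fun_prop) continuous_const)).measurableSet
  have hIvol : ∀ p, volume (I p) ≤ ENNReal.ofReal (2 * mn) := by
    intro p
    rw [hmn, mul_min_of_nonneg _ _ (by norm_num : (0 : ℝ) ≤ 2),
      (ENNReal.ofReal_mono).map_min, le_min_iff, hI]
    constructor
    · refine (measure_mono Set.inter_subset_left).trans ?_
      rw [← mul_div_assoc]
      exact OVC2_vol (g * u) hq _ γ _
    · refine (measure_mono Set.inter_subset_right).trans ?_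
      rw [← mul_div_assoc]
      exact OVC2_vol (g * v) hr _ γ _
  have hcov : AT γ B A ψ (g * u) ∩ AT γ B A ψ (g * v) ∩ Set.Ico x0 (x0 + ℓ) ⊆
      ⋃ p ∈ T.sigma K, ⋃ j : ℤ, {X : ℝ | X + j ∈ I p ∧ X ∈ Set.Ico x0 (x0 + 1)} := by
    rintro X ⟨⟨⟨a, ha, haX⟩, ⟨b, hb, hbX⟩⟩, hX0, hX1⟩
    obtain ⟨t, ht⟩ : ∃ t : ℤ, t = v * a - u * b := ⟨_, rfl⟩
    obtain ⟨k, hk⟩ : ∃ k : ℤ, k = b * x - a * y := ⟨_, rfl⟩
    have ea : t * x + k * u = a := by
      rw [ht, hk]; linear_combination a * hxy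
    have eb : t * y + k * v = b := by
      rw [ht, hk]; linear_combination b * hxy
    have htT : t ∈ T := by
      rw [hT, Vale.Agent.P028EV.mem_Ts]
      have e3 : (t : ℝ) + γ * (((v : ℤ) - (u : ℤ) : ℤ) : ℝ) =
          (u : ℝ) * (((g * v : ℕ) : ℝ) * X - b - γ) -
            (v : ℝ) * (((g * u : ℕ) : ℝ) * X - a - γ) := by
        rw [ht]; push_cast; ring
      rw [e3]
      calc |(u : ℝ) * (((g * v : ℕ) : ℝ) * X - b - γ) -
            (v : ℝ) * (((g * u : ℕ) : ℝ) * X - a - γ)|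
          ≤ |(u : ℝ) * (((g * v : ℕ) : ℝ) * X - b - γ)| +
            |(v : ℝ) * (((g * u : ℕ) : ℝ) * X - a - γ)| := abs_sub _ _
        _ = u * |((g * v : ℕ) : ℝ) * X - b - γ| + v * |((g * u : ℕ) : ℝ) * X - a - γ| := by
            rw [abs_mul, abs_mul, abs_of_pos hu', abs_of_pos hv']
        _ < u * ψ (g * v) + v * ψ (g * u) := by gcongr
        _ = v * ψ (g * u) + u * ψ (g * v) := by ring
    -- reduce `k` modulo `g`
    obtain ⟨k0, hk0⟩ : ∃ k0 : ℕ, (k0 : ℤ) = k % (g : ℤ) :=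
      ⟨(k % (g : ℤ)).toNat, Int.toNat_of_nonneg (Int.emod_nonneg k hgZ.ne')⟩
    obtain ⟨j, hj⟩ : ∃ j : ℤ, j = k / (g : ℤ) := ⟨_, rfl⟩
    have hkj : k = k0 + j * g := by
      rw [hk0, hj, mul_comm, Int.emod_add_mul_ediv]
    have hk0g : k0 < g := by
      have := Int.emod_lt_of_pos k hgZ
      omega
    have hkK : k0 ∈ K t := by
      rw [hK, Finset.mem_filter, Finset.mem_range, hP]
      refine ⟨hk0g, OVC2_GT B A (g * u) _ j ?_, OVC2_GT B A (g * v) _ j ?_⟩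
      · have e : t * x + (k0 : ℤ) * u + j * ((g * u : ℕ) : ℤ) = a := by
          rw [← ea, hkj]; push_cast; ring
        rw [e]
        exact ha
      · have e : t * y + (k0 : ℤ) * v + j * ((g * v : ℕ) : ℤ) = b := by
          rw [← eb, hkj]; push_cast; ring
        rw [e]
        exact hb
    refine Set.mem_iUnion₂.2 ⟨⟨t, k0⟩, Finset.mem_sigma.2 ⟨htT, hkK⟩, Set.mem_iUnion.2
      ⟨-j, ?_, hX0, by linarith⟩⟩
    rw [hI]
    refine ⟨?_, ?_⟩
    · show |((g * u : ℕ) : ℝ) * (X + ((-j : ℤ) : ℝ)) - ((t * x + (k0 : ℤ) * u : ℤ) : ℝ) - γ| <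
        ψ (g * u)
      have e : ((g * u : ℕ) : ℝ) * (X + ((-j : ℤ) : ℝ)) - ((t * x + (k0 : ℤ) * u : ℤ) : ℝ) - γ =
          ((g * u : ℕ) : ℝ) * X - (a : ℝ) - γ := by
        rw [← ea, hkj]; push_cast; ring
      rw [e]
      exact haX
    · show |((g * v : ℕ) : ℝ) * (X + ((-j : ℤ) : ℝ)) - ((t * y + (k0 : ℤ) * v : ℤ) : ℝ) - γ| <
        ψ (g * v)
      have e : ((g * v : ℕ) : ℝ) * (X + ((-j : ℤ) : ℝ)) - ((t * y + (k0 : ℤ) * v : ℤ) : ℝ) - γ =
          ((g * v : ℕ) : ℝ) * X - (b : ℝ) - γ := by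
        rw [← eb, hkj]; push_cast; ring
      rw [e]
      exact hbX
  have hsum0 : 0 ≤ ∑ t ∈ T, (((Finset.range g).filter (P t)).card : ℝ) :=
    Finset.sum_nonneg fun _ _ => Nat.cast_nonneg _
  have hmain : volume (AT γ B A ψ (g * u) ∩ AT γ B A ψ (g * v) ∩ Set.Ico x0 (x0 + ℓ)) ≤
      ENNReal.ofReal (2 * mn * ∑ t ∈ T, (((Finset.range g).filter (P t)).card : ℝ)) := by
    have e0 : ENNReal.ofReal ((∑ t ∈ T, ((K t).card : ℝ)) * (2 * mn)) =
        ((∑ t ∈ T, (K t).card : ℕ) : ENNReal) * ENNReal.ofReal (2 * mn) := by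
      rw [← Nat.cast_sum, ENNReal.ofReal_mul (Nat.cast_nonneg _), ENNReal.ofReal_natCast]
    calc volume (AT γ B A ψ (g * u) ∩ AT γ B A ψ (g * v) ∩ Set.Ico x0 (x0 + ℓ))
        ≤ volume (⋃ p ∈ T.sigma K, ⋃ j : ℤ, {X : ℝ | X + j ∈ I p ∧ X ∈ Set.Ico x0 (x0 + 1)}) :=
          measure_mono hcov
      _ ≤ ∑ p ∈ T.sigma K, volume (⋃ j : ℤ, {X : ℝ | X + j ∈ I p ∧ X ∈ Set.Ico x0 (x0 + 1)}) :=
          measure_biUnion_finset_le _ _
      _ ≤ ∑ p ∈ T.sigma K, ENNReal.ofReal (2 * mn) :=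
          Finset.sum_le_sum fun p _ => (OVC2_fold (I p) (hIm p) x0).trans (hIvol p)
      _ = ENNReal.ofReal ((∑ t ∈ T, ((K t).card : ℝ)) * (2 * mn)) := by
          rw [e0, Finset.sum_const, Finset.card_sigma, nsmul_eq_mul]
      _ = ENNReal.ofReal (2 * mn * ∑ t ∈ T, (((Finset.range g).filter (P t)).card : ℝ)) := by
          rw [mul_comm]
          simp only [hK]
  exact ENNReal.toReal_le_of_le_ofReal (mul_nonneg (mul_nonneg (by norm_num) hmn0) hsum0) hmain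

theorem OVC2_min (g u v : ℕ) (hg : 0 < g) (hu : 0 < u) (hv : 0 < v) (s1 s2 : ℝ) (h1 : 0 ≤ s1)
    (h2 : 0 ≤ s2) :
    (g : ℝ) * min (s1 / ((g * u : ℕ) : ℝ)) (s2 / ((g * v : ℕ) : ℝ)) ≤
      s1 * s2 / max ((v : ℝ) * s1) ((u : ℝ) * s2) := by
  have hu' : (0 : ℝ) < u := by exact_mod_cast hu
  have hv' : (0 : ℝ) < v := by exact_mod_cast hv
  have hg' : (0 : ℝ) < g := by exact_mod_cast hg
  have e1 : (g : ℝ) * (s1 / ((g * u : ℕ) : ℝ)) = s1 / u := by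
    push_cast; field_simp
  have e2 : (g : ℝ) * (s2 / ((g * v : ℕ) : ℝ)) = s2 / v := by
    push_cast; field_simp
  rcases le_total ((u : ℝ) * s2) ((v : ℝ) * s1) with h | h
  · rw [max_eq_left h]
    refine (mul_le_mul_of_nonneg_left (min_le_right _ _) hg'.le).trans ?_
    rw [e2]
    rcases h1.eq_or_lt with h3 | h3
    · rw [← h3, mul_zero] at h
      have : s2 = 0 := le_antisymm (by
        by_contra hc
        push Not at hc
        have := mul_pos hu' hc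
        linarith) h2
      rw [this]
      simp
    · refine le_of_eq ?_
      field_simp
  · rw [max_eq_right h]
    refine (mul_le_mul_of_nonneg_left (min_le_left _ _) hg'.le).trans ?_
    rw [e1]
    rcases h2.eq_or_lt with h3 | h3
    · rw [← h3, mul_zero] at h
      have : s1 = 0 := le_antisymm (by
        by_contra hc
        push Not at hc
        have := mul_pos hv' hc
        linarith) h1
      rw [this]
      simp
    · refine le_of_eq ?_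
      field_simp

theorem ovc (γ : ℝ) (B : ℕ) (A : ℤ) (hB : 0 < B) (hco : IsCoprime A (B : ℤ)) (ψ : ℕ → ℝ)
    (q r : ℕ) (hr : 0 < r) (hrq : r < q)
    (h0 : 0 ≤ ψ q) (h1 : 0 ≤ ψ r) (h2 : ψ q < 1 / 2) (h3 : ψ r < 1 / 2) (x0 ℓ : ℝ) (hℓ : 0 < ℓ)
    (hℓ1 : ℓ ≤ 1) (z : ℕ) (hz : 1 ≤ z) :
    (volume (AT γ B A ψ q ∩ AT γ B A ψ r ∩ Set.Ico x0 (x0 + ℓ))).toReal
      ≤ 2 * (z : ℝ) ^ 2 * (WT B q * ψ q) * (WT B r * ψ r) / Dm ψ q r * EX γ B A ψ 2 z q r := by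
  classical
  obtain ⟨g, u, v, hg, hu, hv, huv, hqe, hre, hge, hue, hve⟩ :=
    Vale.Agent.P028EV.pair_cases (hr.trans hrq) hr
  obtain ⟨x, y, hxy⟩ : ∃ x y : ℤ, (v : ℤ) * x - (u : ℤ) * y = 1 := by
    obtain ⟨a, b, hab⟩ : IsCoprime (v : ℤ) (u : ℤ) := Nat.isCoprime_iff_coprime.mpr huv.symm
    exact ⟨a, -b, by linarith⟩
  have hvu : v < u := by
    rw [hqe, hre] at hrq
    exact Nat.lt_of_mul_lt_mul_left hrq
  have hhe : hh q r = (v : ℤ) - (u : ℤ) := by unfold hh; rw [← hue, ← hve]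
  have hDe : Del ψ q r = (v : ℝ) * ψ (g * u) + (u : ℝ) * ψ (g * v) := by
    unfold Del; rw [← hue, ← hve, ← hqe, ← hre]
  have hDm : Dm ψ q r = max ((v : ℝ) * ψ q) ((u : ℝ) * ψ r) := by
    unfold Dm; rw [← hue, ← hve]
  have hnt : ∀ t, nt B A q r t = ((v : ℤ) - u) * A + t * B := fun t => by
    unfold nt; rw [hhe]
  obtain ⟨T, hT⟩ : ∃ T : Finset ℤ,
      T = Ts γ ((v : ℤ) - (u : ℤ)) ((v : ℝ) * ψ (g * u) + (u : ℝ) * ψ (g * v)) := ⟨_, rfl⟩
  have hEX : EX γ B A ψ 2 z q r = ∑ t ∈ T with ((v : ℤ) - u) * A + t * B ≠ 0,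
      Real.exp (2 * (sL z (u * v) + sL z (((v : ℤ) - u) * A + t * B).natAbs)) := by
    unfold EX
    rw [hhe, hDe, ← hT, ← hue, ← hve]
    simp only [hnt]
  rw [hEX, hDm]
  subst hqe
  subst hre
  obtain ⟨P, hP⟩ : ∃ P : ℤ → ℕ → Prop, ∀ t k, P t k ↔
      (GT B A (g * u) (t * x + k * u) ∧ GT B A (g * v) (t * y + k * v)) :=
    ⟨fun t k => GT B A (g * u) (t * x + k * u) ∧ GT B A (g * v) (t * y + k * v),
      fun _ _ => Iff.rfl⟩
  have hmain := OVC2_main γ B A ψ g u v hg hu hv h0 h1 x y hxy P hP _ rfl T hT x0 ℓ hℓ1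
  refine hmain.trans ?_
  -- degenerate `t`
  have hdeg : ∀ t ∈ T, ¬ (((v : ℤ) - u) * A + t * B ≠ 0) →
      (((Finset.range g).filter (P t)).card : ℝ) = 0 := by
    intro t _ ht
    push Not at ht
    rw [Nat.cast_eq_zero, Finset.card_eq_zero, Finset.filter_eq_empty_iff]
    intro k _ hk
    obtain ⟨ha, -⟩ := (hP t k).1 hk
    obtain ⟨a, hae⟩ : ∃ a : ℤ, a = t * x + k * u := ⟨_, rfl⟩
    obtain ⟨b, hbe⟩ : ∃ b : ℤ, b = t * y + k * v := ⟨_, rfl⟩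
    have het : (v : ℤ) * a - u * b = t := by
      rw [hae, hbe]; linear_combination t * hxy
    have e1 : (v : ℤ) * ((B : ℤ) * a + A) = (u : ℤ) * ((B : ℤ) * b + A) := by
      rw [← het] at ht
      linear_combination ht
    obtain ⟨p, hp, hpu⟩ := Nat.exists_prime_and_dvd (show u ≠ 1 by omega)
    have hpu' : (p : ℤ) ∣ (u : ℤ) := Int.natCast_dvd_natCast.2 hpu
    have hpv : ¬ (p : ℤ) ∣ (v : ℤ) := by
      intro h
      have h' := Int.natCast_dvd_natCast.1 h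
      have := Nat.Coprime.eq_one_of_dvd (Nat.Coprime.coprime_dvd_left hpu huv) h'
      exact hp.one_lt.ne' this
    have h5 : (p : ℤ) ∣ (v : ℤ) * ((B : ℤ) * a + A) := by
      rw [e1]
      exact dvd_mul_of_dvd_left hpu' _
    rcases (Nat.prime_iff_prime_int.1 hp).dvd_or_dvd h5 with h6 | h6
    · exact hpv h6
    · rw [← hae] at ha
      exact ha p hp (dvd_mul_of_dvd_right hpu g) h6
  have hsum : ∑ t ∈ T, (((Finset.range g).filter (P t)).card : ℝ) ≤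
      (g * (z : ℝ) ^ 2 * WT B (g * u) * WT B (g * v)) *
        ∑ t ∈ T with ((v : ℤ) - u) * A + t * B ≠ 0,
        Real.exp (2 * (sL z (u * v) + sL z (((v : ℤ) - u) * A + t * B).natAbs)) := by
    rw [Finset.mul_sum, Finset.sum_filter]
    refine Finset.sum_le_sum fun t ht => ?_
    by_cases hc : ((v : ℤ) - u) * A + t * B ≠ 0
    · rw [if_pos hc]
      exact ovc_count B A hB hco g u v hg hu hv huv x y hxy t hc z hz (P t)
        (fun k hk => (hP t k).1 hk)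
    · rw [if_neg hc, hdeg t ht hc]
  obtain ⟨mn, hmn⟩ : ∃ mn, mn = min (ψ (g * u) / ((g * u : ℕ) : ℝ))
    (ψ (g * v) / ((g * v : ℕ) : ℝ)) := ⟨_, rfl⟩
  have hmn0 : 0 ≤ mn := by
    rw [hmn]
    exact le_min (div_nonneg h0 (Nat.cast_nonneg _)) (div_nonneg h1 (Nat.cast_nonneg _))
  rw [← hmn]
  obtain ⟨S, hS⟩ : ∃ S, S = ∑ t ∈ T with ((v : ℤ) - u) * A + t * B ≠ 0,
        Real.exp (2 * (sL z (u * v) + sL z (((v : ℤ) - u) * A + t * B).natAbs)) := ⟨_, rfl⟩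
  rw [← hS] at hsum ⊢
  have hS0 : 0 ≤ S := by
    rw [hS]
    exact Finset.sum_nonneg fun _ _ => (Real.exp_pos _).le
  have hW : ∀ n, 0 ≤ WT B n := fun n => by
    unfold WT
    refine Finset.prod_nonneg fun p hp => ?_
    have hp' := (Nat.prime_of_mem_primeFactors (Finset.mem_filter.1 hp).1).one_lt
    have : (1 : ℝ) < p := by exact_mod_cast hp'
    rw [sub_nonneg, div_le_one (by linarith)]
    exact this.le
  have h7 := OVC2_min g u v hg hu hv (ψ (g * u)) (ψ (g * v)) h0 h1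
  rw [← hmn] at h7
  calc 2 * mn * ∑ t ∈ T, (((Finset.range g).filter (P t)).card : ℝ) ≤
      2 * mn * ((g * (z : ℝ) ^ 2 * WT B (g * u) * WT B (g * v)) * S) :=
        mul_le_mul_of_nonneg_left hsum (by linarith)
    _ = (2 * (z : ℝ) ^ 2 * WT B (g * u) * WT B (g * v) * S) * (g * mn) := by ring
    _ ≤ (2 * (z : ℝ) ^ 2 * WT B (g * u) * WT B (g * v) * S) *
        (ψ (g * u) * ψ (g * v) / max ((v : ℝ) * ψ (g * u)) ((u : ℝ) * ψ (g * v))) := by
        refine mul_le_mul_of_nonneg_left h7 ?_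
        have := hW (g * u)
        have := hW (g * v)
        positivity
    _ = 2 * (z : ℝ) ^ 2 * (WT B (g * u) * ψ (g * u)) * (WT B (g * v) * ψ (g * v)) /
        max ((v : ℝ) * ψ (g * u)) ((u : ℝ) * ψ (g * v)) * S := by ring

end Vale.Agent.P028W
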