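import Vale.Agent.P028W.Defs
import Vale.Agent.P028W.OVC
import Vale.Agent.P028EV.Good

/-!
Module OVG: good pairs are quasi-independent. `z = zD`. If `z = 1` (so `1/4 ≤ Dm < 16`): `ovc` with `z = 1` and
`#Ts ≤ 2 Del + 1 ≤ 8 Dm`, each exponential `≤ exp(4K)`. If `z ≥ 2`: `4^z ≤ Dm ≤ Del`. Let `P` be the product of the
primes `≤ z` (`primorial z ≤ 4^z ≤ Del`), `g = g1 g2`, `g1` composed of the primes `≤ z`, `g2` of the others. For
fixed `t` the count of `k mod g` is at most (count of `k mod g1` with the conditions at the primes `≤ z`) times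
(count of `k mod g2` with the conditions at `p ∣ g2`), the second being
`≤ g2 ∏_{p ∣ g2, p ∤ B} (1-1/p)^2 exp(4K)` as in OVC; the sum over a full period of `t mod P` of the first is computed
exactly by `two_sided` (Vale/Agent/P028EV/Two.lean), with `P1, P2` = primes `≤ z` dividing `q`, `r`, not `B`. Cover
`Ts` by `≤ 2(2Del+1)/P + 2 ≤ 8 Del/P` periods (see `GOOD_cover` in Vale/Agent/P028EV/Good.lean). The primes `> z`
of `uv` not dividing `g` are missing: a factor `exp(4K)`.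
-/

namespace Vale.Agent.P028W

open Finset MeasureTheory
open Vale.Agent.P028EV (q1 r1 Del hh Ts Bd Ad Nd)
open Vale.Agent.P028KM (w mu Dm Bl FF MN Sb ex cl OK KO th Th)

theorem OVG_add (B : ℕ) (A : ℤ) (q : ℕ) (a j : ℤ) : GT B A q (a + j * q) ↔ GT B A q a := by
  have key : ∀ p : ℕ, p ∣ q → (((p : ℤ) ∣ (B : ℤ) * (a + j * q) + A) ↔
      ((p : ℤ) ∣ (B : ℤ) * a + A)) := by
    intro p hpq
    have hpq' : (p : ℤ) ∣ (q : ℤ) := Int.natCast_dvd_natCast.mpr hpq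
    have e : (B : ℤ) * (a + j * q) + A
        = ((B : ℤ) * j) * q + ((B : ℤ) * a + A) := by ring
    rw [e]
    exact dvd_add_right (hpq'.mul_left _)
  constructor
  · intro h p hpp hpq hdiv
    exact h p hpp hpq ((key p hpq).mpr hdiv)
  · intro h p hpp hpq hdiv
    exact h p hpp hpq ((key p hpq).mp hdiv)

theorem OVG_point (γ Q R s1 s2 x0 X : ℝ) (g u v : ℕ) (hu : 0 < u) (hv : 0 < v)
    (hQ : Q = g * u) (hR : R = g * v) (h1 : s1 < 1 / 2) (hg : 0 < g)
    (x y a b : ℤ) (hxy : (v : ℤ) * x - (u : ℤ) * y = 1)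
    (ha : |Q * X - a - γ| < s1) (hb : |R * X - b - γ| < s2) (hX0 : x0 ≤ X) (hX1 : X < x0 + 1) :
    ∃ t k : ℤ, t * x + k * u = a ∧ t * y + k * v = b ∧
      |(t : ℝ) + γ * (((v : ℤ) - (u : ℤ) : ℤ) : ℝ)| < v * s1 + u * s2 ∧
      ⌊(Q * x0 - γ - s1 - t * x) / u⌋ + 1 ≤ k ∧
      k < ⌊(Q * x0 - γ - s1 - t * x) / u⌋ + 1 + 2 * g := by
  have hu' : (0 : ℝ) < u := by exact_mod_cast hu
  have hv' : (0 : ℝ) < v := by exact_mod_cast hv
  have hg' : (0 : ℝ) < g := by exact_mod_cast hg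
  have hu1 : (1 : ℝ) ≤ u := by exact_mod_cast hu
  have hg1 : (1 : ℝ) ≤ g := by exact_mod_cast hg
  refine ⟨v * a - u * b, b * x - a * y, ?_, ?_, ?_, ?_, ?_⟩
  · linear_combination a * hxy
  · linear_combination b * hxy
  · have e3 : ((v * a - u * b : ℤ) : ℝ) + γ * (((v : ℤ) - (u : ℤ) : ℤ) : ℝ) =
        (u : ℝ) * (R * X - b - γ) - (v : ℝ) * (Q * X - a - γ) := by
      rw [hQ, hR]; push_cast; ring
    rw [e3]
    calc |(u : ℝ) * (R * X - b - γ) - (v : ℝ) * (Q * X - a - γ)|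
        ≤ |(u : ℝ) * (R * X - b - γ)| + |(v : ℝ) * (Q * X - a - γ)| := abs_sub _ _
      _ = u * |R * X - b - γ| + v * |Q * X - a - γ| := by
          rw [abs_mul, abs_mul, abs_of_pos hu', abs_of_pos hv']
      _ < u * s2 + v * s1 := by gcongr
      _ = v * s1 + u * s2 := by ring
  all_goals
    set t : ℤ := v * a - u * b with ht
    set k : ℤ := b * x - a * y with hk
    have ea : t * x + k * u = a := by
      rw [ht, hk]; linear_combination a * hxy
    have haX' := abs_lt.1 ha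
    have ear : (a : ℝ) = t * x + k * u := by
      have := congrArg (fun z : ℤ => (z : ℝ)) ea
      push_cast at this
      linarith
  · have hlok : (Q * x0 - γ - s1 - t * x) / u < (k : ℝ) := by
      have hqX0 : Q * x0 ≤ Q * X := by
        rw [hQ]; exact mul_le_mul_of_nonneg_left hX0 (by positivity)
      rw [div_lt_iff₀ hu']
      linarith [haX'.2]
    have := Int.floor_lt.2 hlok
    omega
  · have hqX1 : Q * X < Q * x0 + g * u := by
      have : Q * X < Q * (x0 + 1) := by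
        rw [hQ]; exact mul_lt_mul_of_pos_left hX1 (by positivity)
      rw [hQ] at this ⊢
      linarith
    have hkhi : (k : ℝ) < (Q * x0 - γ - s1 - t * x) / u + g + 1 := by
      have : (k : ℝ) * u < ((Q * x0 - γ - s1 - t * x) / u + g + 1) * u := by
        have e4 : (Q * x0 - γ - s1 - t * x) / u * u = Q * x0 - γ - s1 - t * x := by
          field_simp
        have e5 : ((Q * x0 - γ - s1 - t * x) / u + g + 1) * u =
            (Q * x0 - γ - s1 - t * x) + g * u + u := by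
          rw [add_mul, add_mul, e4]; ring
        rw [e5]
        linarith [haX'.1]
      exact lt_of_mul_lt_mul_right this hu'.le
    have h5 : (k : ℝ) < ((⌊(Q * x0 - γ - s1 - t * x) / u⌋ + 1 + 2 * g : ℤ) : ℝ) := by
      push_cast
      have := Int.lt_floor_add_one ((Q * x0 - γ - s1 - t * x) / u)
      linarith
    exact_mod_cast h5

open Classical in
theorem OVG_main (γ : ℝ) (B : ℕ) (A : ℤ) (ψ : ℕ → ℝ) (g u v : ℕ) (hg : 0 < g) (hu : 0 < u)
    (hv : 0 < v) (h0 : 0 ≤ ψ (g * u)) (h0' : 0 ≤ ψ (g * v))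
    (h1 : ψ (g * u) < 1 / 2) (x y : ℤ)
    (hxy : (v : ℤ) * x - (u : ℤ) * y = 1) (x0 ℓ : ℝ) (hℓ1 : ℓ ≤ 1) (P : ℤ → ℤ → Prop)
    (hP : ∀ t k, P t k ↔ (GT B A (g * u) (t * x + k * u) ∧ GT B A (g * v) (t * y + k * v)))
    (mn : ℝ)
    (hmn : mn = min (ψ (g * u) / ((g * u : ℕ) : ℝ)) (ψ (g * v) / ((g * v : ℕ) : ℝ)))
    (T : Finset ℤ)
    (hT : T = Ts γ ((v : ℤ) - (u : ℤ)) ((v : ℝ) * ψ (g * u) + (u : ℝ) * ψ (g * v))) :
    (volume (AT γ B A ψ (g * u) ∩ AT γ B A ψ (g * v) ∩ Set.Ico x0 (x0 + ℓ))).toReal ≤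
      4 * mn * ∑ t ∈ T, (((Finset.range g).filter (fun k : ℕ => P t (k : ℤ))).card : ℝ) := by
  have hq : 0 < g * u := Nat.mul_pos hg hu
  have hr : 0 < g * v := Nat.mul_pos hg hv
  have hPper : ∀ t k j : ℤ, P t (k + j * g) ↔ P t k := by
    intro t k j
    have e1 : t * x + (k + j * g) * (u : ℤ) = (t * x + k * u) + j * ((g * u : ℕ) : ℤ) := by
      push_cast; ring
    have e2 : t * y + (k + j * g) * (v : ℤ) = (t * y + k * v) + j * ((g * v : ℕ) : ℤ) := by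
      push_cast; ring
    rw [hP, hP, e1, e2, OVG_add, OVG_add]
  obtain ⟨K, hK⟩ : ∃ K : ℤ → Finset ℤ, ∀ t, K t = (Finset.Ico
      (⌊(((g * u : ℕ) : ℝ) * x0 - γ - ψ (g * u) - t * x) / u⌋ + 1)
      (⌊(((g * u : ℕ) : ℝ) * x0 - γ - ψ (g * u) - t * x) / u⌋ + 1 + 2 * g)).filter
        (P t) := ⟨_, fun _ => rfl⟩
  have hKcard : ∀ t, (K t).card ≤ 2 * ((Finset.range g).filter (fun k : ℕ => P t (k : ℤ))).card := by
    intro t
    rw [hK]
    exact Vale.Agent.P028EV.pair_per2 g hg (P t) (hPper t) _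
  have hmn0 : 0 ≤ mn := by
    rw [hmn]
    exact le_min (div_nonneg h0 (Nat.cast_nonneg _)) (div_nonneg h0' (Nat.cast_nonneg _))
  obtain ⟨I, hI⟩ : ∃ I : (Σ _ : ℤ, ℤ) → Set ℝ, ∀ p, I p =
    {X : ℝ | |((g * u : ℕ) : ℝ) * X - ((p.1 * x + p.2 * u : ℤ) : ℝ) - γ| < ψ (g * u)} ∩
    {X : ℝ | |((g * v : ℕ) : ℝ) * X - ((p.1 * y + p.2 * v : ℤ) : ℝ) - γ| < ψ (g * v)} :=
      ⟨_, fun _ => rfl⟩
  have hIvol : ∀ p, volume (I p) ≤ ENNReal.ofReal (2 * mn) := by
    intro p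
    rw [hmn, mul_min_of_nonneg _ _ (by norm_num : (0 : ℝ) ≤ 2),
      (ENNReal.ofReal_mono).map_min, le_min_iff, hI]
    constructor
    · refine (measure_mono Set.inter_subset_left).trans ?_
      rw [← mul_div_assoc]
      exact Vale.Agent.P028EV.pair_vol (g * u) hq _ γ _
    · refine (measure_mono Set.inter_subset_right).trans ?_
      rw [← mul_div_assoc]
      exact Vale.Agent.P028EV.pair_vol (g * v) hr _ γ _
  have hcov : AT γ B A ψ (g * u) ∩ AT γ B A ψ (g * v) ∩ Set.Ico x0 (x0 + ℓ) ⊆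
      ⋃ p ∈ T.sigma K, I p := by
    rintro X ⟨⟨⟨a, ha, haX⟩, ⟨b, hb, hbX⟩⟩, hX0, hX1⟩
    obtain ⟨t, k, ea, eb, ht, hk1, hk2⟩ := OVG_point γ ((g * u : ℕ) : ℝ) ((g * v : ℕ) : ℝ)
      (ψ (g * u)) (ψ (g * v)) x0 X g u v hu hv (by push_cast; ring) (by push_cast; ring) h1 hg
      x y a b hxy haX hbX hX0 (by linarith)
    have htT : t ∈ T := by
      rw [hT, Vale.Agent.P028EV.mem_Ts]
      exact ht
    have hkK : k ∈ K t := by
      rw [hK, Finset.mem_filter, Finset.mem_Ico, hP, ea, eb]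
      exact ⟨⟨hk1, hk2⟩, ha, hb⟩
    refine Set.mem_iUnion₂.2 ⟨⟨t, k⟩, Finset.mem_sigma.2 ⟨htT, hkK⟩, ?_⟩
    rw [hI]
    refine ⟨?_, ?_⟩
    · show |((g * u : ℕ) : ℝ) * X - ((t * x + k * u : ℤ) : ℝ) - γ| < ψ (g * u)
      rw [ea]; exact haX
    · show |((g * v : ℕ) : ℝ) * X - ((t * y + k * v : ℤ) : ℝ) - γ| < ψ (g * v)
      rw [eb]; exact hbX
  have hsum0 : 0 ≤ ∑ t ∈ T, (((Finset.range g).filter (fun k : ℕ => P t (k : ℤ))).card : ℝ) :=
    Finset.sum_nonneg fun _ _ => Nat.cast_nonneg _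
  have hmain : volume (AT γ B A ψ (g * u) ∩ AT γ B A ψ (g * v) ∩ Set.Ico x0 (x0 + ℓ)) ≤
      ENNReal.ofReal (4 * mn * ∑ t ∈ T,
        (((Finset.range g).filter (fun k : ℕ => P t (k : ℤ))).card : ℝ)) := by
    have e0 : ENNReal.ofReal ((∑ t ∈ T, ((K t).card : ℝ)) * (2 * mn)) =
        ((∑ t ∈ T, (K t).card : ℕ) : ENNReal) * ENNReal.ofReal (2 * mn) := by
      rw [← Nat.cast_sum, ENNReal.ofReal_mul (Nat.cast_nonneg _), ENNReal.ofReal_natCast]
    calc volume (AT γ B A ψ (g * u) ∩ AT γ B A ψ (g * v) ∩ Set.Ico x0 (x0 + ℓ))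
        ≤ volume (⋃ p ∈ T.sigma K, I p) := measure_mono hcov
      _ ≤ ∑ p ∈ T.sigma K, volume (I p) := measure_biUnion_finset_le _ _
      _ ≤ ∑ p ∈ T.sigma K, ENNReal.ofReal (2 * mn) := Finset.sum_le_sum fun p _ => hIvol p
      _ = ENNReal.ofReal ((∑ t ∈ T, ((K t).card : ℝ)) * (2 * mn)) := by
          rw [e0, Finset.sum_const, Finset.card_sigma, nsmul_eq_mul]
      _ ≤ ENNReal.ofReal (4 * mn * ∑ t ∈ T,
            (((Finset.range g).filter (fun k : ℕ => P t (k : ℤ))).card : ℝ)) := by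
          refine ENNReal.ofReal_le_ofReal ?_
          have h6 : (∑ t ∈ T, ((K t).card : ℝ)) ≤
              2 * ∑ t ∈ T, (((Finset.range g).filter (fun k : ℕ => P t (k : ℤ))).card : ℝ) := by
            rw [Finset.mul_sum]
            refine Finset.sum_le_sum fun t _ => ?_
            exact_mod_cast hKcard t
          calc (∑ t ∈ T, ((K t).card : ℝ)) * (2 * mn)
              ≤ (2 * ∑ t ∈ T, (((Finset.range g).filter (fun k : ℕ => P t (k : ℤ))).card : ℝ))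
                * (2 * mn) := mul_le_mul_of_nonneg_right h6 (mul_nonneg (by norm_num) hmn0)
            _ = 4 * mn * ∑ t ∈ T,
                (((Finset.range g).filter (fun k : ℕ => P t (k : ℤ))).card : ℝ) := by ring
  exact ENNReal.toReal_le_of_le_ofReal (mul_nonneg (mul_nonneg (by norm_num) hmn0) hsum0) hmain

/-! ### counting -/

open Classical in
theorem OVG_inj2 (a b : ℕ) (ha : 0 < a) (hb : 0 < b) (hab : Nat.Coprime a b) (P Q : ℕ → Prop)
    (hP : ∀ k, P k → P (k % a)) (hQ : ∀ k, Q k → Q (k % b)) :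
    ((Finset.range (a * b)).filter (fun k => P k ∧ Q k)).card ≤
      ((Finset.range a).filter P).card * ((Finset.range b).filter Q).card := by
  rw [← Finset.card_product]
  refine Finset.card_le_card_of_injOn (fun k => (k % a, k % b)) ?_ ?_
  · intro k hk
    have hk' := Finset.mem_filter.1 (Finset.mem_coe.1 hk)
    refine Finset.mem_coe.2 (Finset.mem_product.2 ⟨?_, ?_⟩)
    · exact Finset.mem_filter.2 ⟨Finset.mem_range.2 (Nat.mod_lt _ ha), hP k hk'.2.1⟩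
    · exact Finset.mem_filter.2 ⟨Finset.mem_range.2 (Nat.mod_lt _ hb), hQ k hk'.2.2⟩
  · intro k hk k' hk' h
    have h1 := Finset.mem_range.1 (Finset.mem_filter.1 (Finset.mem_coe.1 hk)).1
    have h2 := Finset.mem_range.1 (Finset.mem_filter.1 (Finset.mem_coe.1 hk')).1
    have h3 := (Prod.mk.injEq _ _ _ _).mp h
    have h4 : k ≡ k' [MOD a * b] := (Nat.modEq_and_modEq_iff_modEq_mul hab).1 ⟨h3.1, h3.2⟩
    exact Nat.ModEq.eq_of_lt_of_lt h4 h1 h2

open Classical in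
theorem OVG_crt (R : Finset ℕ) (c : ℕ → ℕ → Prop) (hR : ∀ p ∈ R, p.Prime)
    (hc : ∀ p ∈ R, ∀ k k', k ≡ k' [MOD p] → c p k → c p k') :
    ((Finset.range (∏ p ∈ R, p)).filter (fun k => ∀ p ∈ R, c p k)).card ≤
      ∏ p ∈ R, ((Finset.range p).filter (c p)).card := by
  induction R using Finset.induction_on with
  | empty => simp
  | insert p R hpR ih =>
    rw [Finset.prod_insert hpR, Finset.prod_insert hpR]
    have hp := hR p (Finset.mem_insert_self _ _)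
    have hR' : ∀ q ∈ R, q.Prime := fun q hq => hR q (Finset.mem_insert_of_mem hq)
    have ih' := ih hR' (fun q hq => hc q (Finset.mem_insert_of_mem hq))
    have hcop : Nat.Coprime p (∏ q ∈ R, q) := by
      refine Nat.Coprime.prod_right fun q hq => ?_
      exact (Nat.coprime_primes hp (hR' q hq)).2 fun h => hpR (h ▸ hq)
    have hD : 0 < ∏ q ∈ R, q := Finset.prod_pos fun q hq => (hR' q hq).pos
    obtain ⟨W, hW⟩ : ∃ W : ℕ → Prop, ∀ k, W k ↔ ∀ q ∈ R, c q k := ⟨_, fun _ => Iff.rfl⟩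
    have ih2 : ((Finset.range (∏ q ∈ R, q)).filter W).card ≤
        ∏ q ∈ R, ((Finset.range q).filter (c q)).card := by
      refine le_trans (Finset.card_le_card ?_) ih'
      intro k hk
      rw [Finset.mem_filter] at hk ⊢
      exact ⟨hk.1, (hW k).1 hk.2⟩
    have h1 := OVG_inj2 p (∏ q ∈ R, q) hp.pos hD hcop (c p) W
      (fun k h => hc p (Finset.mem_insert_self _ _) k _ (Nat.mod_modEq k p).symm h)
      (fun k h => (hW _).2 fun q hq => hc q (Finset.mem_insert_of_mem hq) k _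
        ((Nat.mod_modEq k _).symm.of_dvd (Finset.dvd_prod_of_mem (fun q => q) hq))
          ((hW k).1 h q hq))
    refine le_trans (Finset.card_le_card ?_) (h1.trans (Nat.mul_le_mul_left _ ih2))
    intro k hk
    rw [Finset.mem_filter] at hk ⊢
    exact ⟨hk.1, hk.2 p (Finset.mem_insert_self _ _), (hW k).2 fun q hq => hk.2 q
      (Finset.mem_insert_of_mem hq)⟩

open Classical in
theorem OVG_mult (D m : ℕ) (hD : 0 < D) (C : ℕ → Prop) (hC : ∀ k, C k → C (k % D)) :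
    ((Finset.range (D * m)).filter C).card ≤ m * ((Finset.range D).filter C).card := by
  rw [mul_comm m]
  have h : ((Finset.range D).filter C).card * m =
      (((Finset.range D).filter C) ×ˢ Finset.range m).card := by
    rw [Finset.card_product, Finset.card_range]
  rw [h]
  refine Finset.card_le_card_of_injOn (fun k => (k % D, k / D)) ?_ ?_
  · intro k hk
    have hk' := Finset.mem_filter.1 (Finset.mem_coe.1 hk)
    refine Finset.mem_coe.2 (Finset.mem_product.2 ⟨?_, ?_⟩)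
    · exact Finset.mem_filter.2 ⟨Finset.mem_range.2 (Nat.mod_lt _ hD), hC k hk'.2⟩
    · exact Finset.mem_range.2 (Nat.div_lt_of_lt_mul (Finset.mem_range.1 hk'.1))
  · intro k _ k' _ h
    have h3 := (Prod.mk.injEq _ _ _ _).mp h
    rw [← Nat.mod_add_div k D, ← Nat.mod_add_div k' D, h3.1, h3.2]

theorem OVG_root (p : ℕ) (hp : p.Prime) (α β : ℤ) (hα : ¬ (p : ℤ) ∣ α) :
    ∃ k1 : ℕ, k1 < p ∧ (p : ℤ) ∣ α * (k1 : ℤ) + β := by
  obtain ⟨k, hk⟩ := Vale.Agent.P028EV.sieve_exists_root hp β hα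
  have hpos : (0 : ℤ) < p := by exact_mod_cast hp.pos
  have h0 := Int.emod_nonneg k hpos.ne'
  have h1 := Int.emod_lt_of_pos k hpos
  refine ⟨(k % (p : ℤ)).toNat, by omega, ?_⟩
  rw [Int.toNat_of_nonneg h0]
  have e : α * (k % (p : ℤ)) + β = (α * k + β) - (p : ℤ) * (α * (k / (p : ℤ))) := by
    have := Int.emod_add_mul_ediv k (p : ℤ)
    linear_combination α * this
  rw [e]
  exact dvd_sub hk (Dvd.intro _ rfl)

open Classical in
theorem OVG_local (p : ℕ) (hp : p.Prime) (B : ℕ) (A : ℤ) (u v : ℕ) (huv : Nat.Coprime u v)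
    (x y t : ℤ) (hxy : (v : ℤ) * x - (u : ℤ) * y = 1) (hB : ¬ p ∣ B) :
    (((Finset.range p).filter (fun k : ℕ => ¬ ((p : ℤ) ∣ (B : ℤ) * (t * x + k * u) + A) ∧
      ¬ ((p : ℤ) ∣ (B : ℤ) * (t * y + k * v) + A))).card : ℝ) ≤
      p * ((1 - 1 / (p : ℝ)) ^ 2 * Real.exp (2 * ((if p ∣ u * v then 1 / (p : ℝ) else 0) +
        (if (p : ℤ) ∣ ((v : ℤ) - u) * A + t * B then 1 / (p : ℝ) else 0)))) := by
  have hp2 : (2 : ℝ) ≤ p := by exact_mod_cast hp.two_le
  have hp0 : (0 : ℝ) < p := by linarith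
  have hpi : 1 / (p : ℝ) ≤ 1 / 2 := one_div_le_one_div_of_le (by norm_num) hp2
  have hpi0 : 0 < 1 / (p : ℝ) := by positivity
  have hpp : (p : ℝ) * (1 / (p : ℝ)) = 1 := by field_simp
  obtain ⟨F, hF⟩ : ∃ F : Finset ℕ, ∀ k, k ∈ F ↔ (k < p ∧
      ¬ ((p : ℤ) ∣ (B : ℤ) * (t * x + k * u) + A) ∧
      ¬ ((p : ℤ) ∣ (B : ℤ) * (t * y + k * v) + A)) :=
    ⟨(Finset.range p).filter (fun k : ℕ => ¬ ((p : ℤ) ∣ (B : ℤ) * (t * x + k * u) + A) ∧
      ¬ ((p : ℤ) ∣ (B : ℤ) * (t * y + k * v) + A)), fun k => by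
        rw [Finset.mem_filter, Finset.mem_range]⟩
  have hFe : ((Finset.range p).filter (fun k : ℕ => ¬ ((p : ℤ) ∣ (B : ℤ) * (t * x + k * u) + A) ∧
      ¬ ((p : ℤ) ∣ (B : ℤ) * (t * y + k * v) + A))) = F := by
    ext k
    rw [Finset.mem_filter, Finset.mem_range, hF]
  rw [hFe]
  have hu1 : ¬ p ∣ u → ∃ k1 : ℕ, k1 < p ∧ (p : ℤ) ∣ (B : ℤ) * (t * x + k1 * u) + A := by
    intro hu
    have h1 : ¬ (p : ℤ) ∣ (B : ℤ) * (u : ℤ) := by
      intro h
      have h2 : p ∣ B * u := by exact_mod_cast h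
      exact (hp.dvd_mul.1 h2).elim hB hu
    obtain ⟨k1, h2, h3⟩ := OVG_root p hp ((B : ℤ) * u) (B * t * x + A) h1
    refine ⟨k1, h2, ?_⟩
    have e : (B : ℤ) * (t * x + k1 * u) + A = (B : ℤ) * u * (k1 : ℤ) + (B * t * x + A) := by ring
    rw [e]; exact h3
  have hv1 : ¬ p ∣ v → ∃ k1 : ℕ, k1 < p ∧ (p : ℤ) ∣ (B : ℤ) * (t * y + k1 * v) + A := by
    intro hv
    have h1 : ¬ (p : ℤ) ∣ (B : ℤ) * (v : ℤ) := by
      intro h
      have h2 : p ∣ B * v := by exact_mod_cast h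
      exact (hp.dvd_mul.1 h2).elim hB hv
    obtain ⟨k1, h2, h3⟩ := OVG_root p hp ((B : ℤ) * v) (B * t * y + A) h1
    refine ⟨k1, h2, ?_⟩
    have e : (B : ℤ) * (t * y + k1 * v) + A = (B : ℤ) * v * (k1 : ℤ) + (B * t * y + A) := by ring
    rw [e]; exact h3
  by_cases hcase : ¬ p ∣ u * v ∧ ¬ (p : ℤ) ∣ ((v : ℤ) - u) * A + t * B
  · obtain ⟨huvp, hnt⟩ := hcase
    rw [if_neg huvp, if_neg hnt, add_zero, mul_zero, Real.exp_zero, mul_one]
    obtain ⟨k1, hk1, hd1⟩ := hu1 fun h => huvp (h.mul_right v)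
    obtain ⟨k2, hk2, hd2⟩ := hv1 fun h => huvp (h.mul_left u)
    have hne : k2 ≠ k1 := by
      rintro rfl
      apply hnt
      have e : ((v : ℤ) - u) * A + t * B = (v : ℤ) * ((B : ℤ) * (t * x + k2 * u) + A) -
          (u : ℤ) * ((B : ℤ) * (t * y + k2 * v) + A) := by
        linear_combination (-(B : ℤ) * t) * hxy
      rw [e]
      exact dvd_sub (hd1.mul_left _) (hd2.mul_left _)
    have hsub : F ⊆ ((Finset.range p).erase k1).erase k2 := by
      intro k hk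
      rw [hF] at hk
      rw [Finset.mem_erase, Finset.mem_erase, Finset.mem_range]
      refine ⟨?_, ?_, hk.1⟩
      · rintro rfl; exact hk.2.2 hd2
      · rintro rfl; exact hk.2.1 hd1
    have hcard := Finset.card_le_card hsub
    rw [Finset.card_erase_of_mem (Finset.mem_erase.2 ⟨hne, Finset.mem_range.2 hk2⟩),
      Finset.card_erase_of_mem (Finset.mem_range.2 hk1), Finset.card_range] at hcard
    have h2 : F.card + 2 ≤ p := by have := hp.two_le; omega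
    have h3 : (F.card : ℝ) + 2 ≤ p := by exact_mod_cast h2
    have e : (p : ℝ) * (1 - 1 / (p : ℝ)) ^ 2 = p - 2 + 1 / p := by
      field_simp
      ring
    rw [e]
    linarith
  · have hone : F.card + 1 ≤ p := by
      have hex : ∃ k1 : ℕ, k1 < p ∧ k1 ∉ F := by
        by_cases hu : p ∣ u
        · have hv : ¬ p ∣ v := fun hv => hp.one_lt.ne' (Nat.dvd_one.1 (huv ▸ Nat.dvd_gcd hu hv))
          obtain ⟨k1, h1, h2⟩ := hv1 hv
          exact ⟨k1, h1, fun h => ((hF _).1 h).2.2 h2⟩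
        · obtain ⟨k1, h1, h2⟩ := hu1 hu
          exact ⟨k1, h1, fun h => ((hF _).1 h).2.1 h2⟩
      obtain ⟨k1, hk1, hk1F⟩ := hex
      have hsub : F ⊆ (Finset.range p).erase k1 := by
        intro k hk
        rw [Finset.mem_erase, Finset.mem_range]
        exact ⟨fun h => hk1F (h ▸ hk), ((hF _).1 hk).1⟩
      have hcard := Finset.card_le_card hsub
      rw [Finset.card_erase_of_mem (Finset.mem_range.2 hk1), Finset.card_range] at hcard
      have := hp.two_le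
      omega
    have h3 : (F.card : ℝ) + 1 ≤ p := by exact_mod_cast hone
    have hE : 1 / (p : ℝ) ≤ (if p ∣ u * v then 1 / (p : ℝ) else 0) +
        (if (p : ℤ) ∣ ((v : ℤ) - u) * A + t * B then 1 / (p : ℝ) else 0) := by
      by_cases h1 : p ∣ u * v
      · rw [if_pos h1]
        split_ifs <;> linarith
      · have h2 : (p : ℤ) ∣ ((v : ℤ) - u) * A + t * B := by
          by_contra h
          exact hcase ⟨h1, h⟩
        rw [if_neg h1, if_pos h2]
        linarith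
    have h4 := Vale.Agent.P028EV.GOOD_exp_le hpi0.le hpi
    have h5 : 1 ≤ (1 - 1 / (p : ℝ)) * Real.exp (2 * (1 / (p : ℝ))) := by
      have h6 : Real.exp (-(2 * (1 / (p : ℝ)))) * Real.exp (2 * (1 / (p : ℝ))) = 1 := by
        rw [← Real.exp_add]; simp
      calc (1 : ℝ) = Real.exp (-(2 * (1 / (p : ℝ)))) * Real.exp (2 * (1 / (p : ℝ))) := h6.symm
        _ ≤ _ := mul_le_mul_of_nonneg_right h4 (Real.exp_pos _).le
    have h7 : Real.exp (2 * (1 / (p : ℝ))) ≤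
        Real.exp (2 * ((if p ∣ u * v then 1 / (p : ℝ) else 0) +
        (if (p : ℤ) ∣ ((v : ℤ) - u) * A + t * B then 1 / (p : ℝ) else 0))) :=
      Real.exp_le_exp.2 (by linarith)
    set Y := Real.exp (2 * ((if p ∣ u * v then 1 / (p : ℝ) else 0) +
        (if (p : ℤ) ∣ ((v : ℤ) - u) * A + t * B then 1 / (p : ℝ) else 0))) with hY
    have h8 : 1 ≤ (1 - 1 / (p : ℝ)) * Y := h5.trans (mul_le_mul_of_nonneg_left h7 (by linarith))
    have h9 : 0 ≤ (p : ℝ) * (1 - 1 / (p : ℝ)) := mul_nonneg hp0.le (by linarith)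
    calc (F.card : ℝ) ≤ (p : ℝ) * (1 - 1 / (p : ℝ)) := by
          rw [mul_sub, hpp]; linarith
      _ ≤ ((p : ℝ) * (1 - 1 / (p : ℝ))) * ((1 - 1 / (p : ℝ)) * Y) := le_mul_of_one_le_right h9 h8
      _ = p * ((1 - 1 / (p : ℝ)) ^ 2 * Y) := by ring

open Classical in
theorem OVG_N2 (z : ℕ) (g2 : ℕ) (hz : ∀ p : ℕ, p.Prime → p ∣ g2 → z < p) (B : ℕ)
    (A : ℤ) (u v : ℕ) (hu : 0 < u) (hv : 0 < v) (huv : Nat.Coprime u v) (x y t : ℤ)
    (hxy : (v : ℤ) * x - (u : ℤ) * y = 1) (hnt : ((v : ℤ) - u) * A + t * B ≠ 0) (K : ℝ)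
    (hK1 : sL z (u * v) ≤ K) (hK2 : sL z (((v : ℤ) - u) * A + t * B).natAbs ≤ K) :
    (((Finset.range g2).filter (fun k : ℕ => ∀ p ∈ g2.primeFactors.filter (fun p => ¬ p ∣ B),
      ¬ ((p : ℤ) ∣ (B : ℤ) * (t * x + k * u) + A) ∧
      ¬ ((p : ℤ) ∣ (B : ℤ) * (t * y + k * v) + A))).card : ℝ) ≤
      g2 * ((∏ p ∈ g2.primeFactors.filter (fun p => ¬ p ∣ B), (1 - 1 / (p : ℝ))) ^ 2 *
        Real.exp (4 * K)) := by
  set R := g2.primeFactors.filter (fun p => ¬ p ∣ B) with hR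
  have hRp : ∀ p ∈ R, p.Prime ∧ p ∣ g2 ∧ ¬ p ∣ B := by
    intro p hp
    rw [hR, Finset.mem_filter, Nat.mem_primeFactors] at hp
    exact ⟨hp.1.1, hp.1.2.1, hp.2⟩
  obtain ⟨c, hc⟩ : ∃ c : ℕ → ℕ → Prop, ∀ p k, c p k ↔
      (¬ ((p : ℤ) ∣ (B : ℤ) * (t * x + k * u) + A) ∧
      ¬ ((p : ℤ) ∣ (B : ℤ) * (t * y + k * v) + A)) := ⟨_, fun _ _ => Iff.rfl⟩
  have hcper : ∀ p k k' : ℕ, k ≡ k' [MOD p] → c p k → c p k' := by
    intro p k k' hkk h
    rw [hc] at h ⊢
    have hd : (p : ℤ) ∣ (k : ℤ) - k' := (Nat.modEq_iff_dvd.1 hkk.symm)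
    refine ⟨fun h1 => h.1 ?_, fun h1 => h.2 ?_⟩
    · have e : (B : ℤ) * (t * x + k * u) + A =
          ((B : ℤ) * (t * x + k' * u) + A) + ((k : ℤ) - k') * (B * u) := by ring
      rw [e]; exact dvd_add h1 (hd.mul_right _)
    · have e : (B : ℤ) * (t * y + k * v) + A =
          ((B : ℤ) * (t * y + k' * v) + A) + ((k : ℤ) - k') * (B * v) := by ring
      rw [e]; exact dvd_add h1 (hd.mul_right _)
  have hDd : (∏ p ∈ R, p) ∣ g2 :=
    (Finset.prod_dvd_prod_of_subset _ _ (fun p => p) (Finset.filter_subset _ _)).trans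
      (Nat.prod_primeFactors_dvd g2)
  obtain ⟨m, hm⟩ := hDd
  have hD0 : 0 < ∏ p ∈ R, p := Finset.prod_pos fun p hp => (hRp p hp).1.pos
  obtain ⟨W, hW⟩ : ∃ W : ℕ → Prop, ∀ k, W k ↔ ∀ p ∈ R, c p k := ⟨_, fun _ => Iff.rfl⟩
  have h1 : ((Finset.range g2).filter (fun k : ℕ => ∀ p ∈ R,
      ¬ ((p : ℤ) ∣ (B : ℤ) * (t * x + k * u) + A) ∧
      ¬ ((p : ℤ) ∣ (B : ℤ) * (t * y + k * v) + A))).card ≤
      m * ∏ p ∈ R, ((Finset.range p).filter (c p)).card := by
    have h2 := OVG_mult (∏ p ∈ R, p) m hD0 W (fun k hk => (hW _).2 fun p hp =>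
      hcper p k _ ((Nat.mod_modEq k _).symm.of_dvd (Finset.dvd_prod_of_mem (fun q => q) hp))
        ((hW k).1 hk p hp))
    have h3 := OVG_crt R c (fun p hp => (hRp p hp).1) (fun p _ => hcper p)
    have h4 : ((Finset.range (∏ p ∈ R, p)).filter W).card ≤
        ∏ p ∈ R, ((Finset.range p).filter (c p)).card := by
      refine le_trans (Finset.card_le_card ?_) h3
      intro k hk
      rw [Finset.mem_filter] at hk ⊢
      exact ⟨hk.1, (hW k).1 hk.2⟩
    refine le_trans (Finset.card_le_card ?_) (h2.trans (Nat.mul_le_mul_left _ h4))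
    intro k hk
    rw [Finset.mem_filter] at hk ⊢
    rw [← hm]
    exact ⟨hk.1, (hW k).2 fun p hp => (hc p k).2 (hk.2 p hp)⟩
  have h5 : (((Finset.range g2).filter (fun k : ℕ => ∀ p ∈ R,
      ¬ ((p : ℤ) ∣ (B : ℤ) * (t * x + k * u) + A) ∧
      ¬ ((p : ℤ) ∣ (B : ℤ) * (t * y + k * v) + A))).card : ℝ) ≤
      m * ∏ p ∈ R, (((Finset.range p).filter (c p)).card : ℝ) := by exact_mod_cast h1
  refine h5.trans ?_
  set e : ℕ → ℝ := fun p => (if p ∣ u * v then 1 / (p : ℝ) else 0) +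
        (if (p : ℤ) ∣ ((v : ℤ) - u) * A + t * B then 1 / (p : ℝ) else 0) with he
  have h6 : ∏ p ∈ R, (((Finset.range p).filter (c p)).card : ℝ) ≤
      ∏ p ∈ R, ((p : ℝ) * ((1 - 1 / (p : ℝ)) ^ 2 * Real.exp (2 * e p))) := by
    refine Finset.prod_le_prod (fun _ _ => Nat.cast_nonneg _) fun p hp => ?_
    refine le_trans (Nat.cast_le.2 (Finset.card_le_card ?_))
      (OVG_local p (hRp p hp).1 B A u v huv x y t hxy (hRp p hp).2.2)
    intro k hk
    rw [Finset.mem_filter] at hk ⊢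
    exact ⟨hk.1, (hc p k).1 hk.2⟩
  have h7 : ∏ p ∈ R, ((p : ℝ) * ((1 - 1 / (p : ℝ)) ^ 2 * Real.exp (2 * e p))) =
      (∏ p ∈ R, (p : ℝ)) * ((∏ p ∈ R, (1 - 1 / (p : ℝ))) ^ 2 *
        Real.exp (2 * ∑ p ∈ R, e p)) := by
    rw [Finset.prod_mul_distrib, Finset.prod_mul_distrib, Finset.prod_pow, Finset.mul_sum,
      Real.exp_sum]
  have h8 : ∑ p ∈ R, e p ≤ 2 * K := by
    have h9 : ∑ p ∈ R, (if p ∣ u * v then 1 / (p : ℝ) else 0) ≤ sL z (u * v) := by
      rw [← Finset.sum_filter]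
      unfold sL
      refine Finset.sum_le_sum_of_subset_of_nonneg ?_ (fun _ _ _ => by positivity)
      intro p hp
      rw [Finset.mem_filter] at hp
      have hp' := hRp p hp.1
      rw [Finset.mem_filter, Nat.mem_primeFactors]
      exact ⟨⟨hp'.1, hp.2, (Nat.mul_pos hu hv).ne'⟩, by exact_mod_cast hz p hp'.1 hp'.2.1⟩
    have h10 : ∑ p ∈ R, (if (p : ℤ) ∣ ((v : ℤ) - u) * A + t * B then 1 / (p : ℝ) else 0) ≤
        sL z (((v : ℤ) - u) * A + t * B).natAbs := by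
      rw [← Finset.sum_filter]
      unfold sL
      refine Finset.sum_le_sum_of_subset_of_nonneg ?_ (fun _ _ _ => by positivity)
      intro p hp
      rw [Finset.mem_filter] at hp
      have hp' := hRp p hp.1
      rw [Finset.mem_filter, Nat.mem_primeFactors]
      exact ⟨⟨hp'.1, Int.natCast_dvd.1 hp.2, Int.natAbs_ne_zero.2 hnt⟩,
        by exact_mod_cast hz p hp'.1 hp'.2.1⟩
    rw [he, Finset.sum_add_distrib]
    linarith
  have hgm : (g2 : ℝ) = (∏ p ∈ R, (p : ℝ)) * m := by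
    have : (g2 : ℝ) = ((∏ p ∈ R, p : ℕ) * m : ℕ) := by exact_mod_cast congrArg (Nat.cast (R := ℝ)) hm
    rw [this]; push_cast; ring
  calc (m : ℝ) * ∏ p ∈ R, (((Finset.range p).filter (c p)).card : ℝ)
      ≤ m * ((∏ p ∈ R, (p : ℝ)) * ((∏ p ∈ R, (1 - 1 / (p : ℝ))) ^ 2 *
        Real.exp (2 * ∑ p ∈ R, e p))) := by
        refine mul_le_mul_of_nonneg_left ?_ (Nat.cast_nonneg _)
        rw [← h7]; exact h6
    _ = g2 * ((∏ p ∈ R, (1 - 1 / (p : ℝ))) ^ 2 * Real.exp (2 * ∑ p ∈ R, e p)) := by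
        rw [hgm]; ring
    _ ≤ g2 * ((∏ p ∈ R, (1 - 1 / (p : ℝ))) ^ 2 * Real.exp (4 * K)) := by
        refine mul_le_mul_of_nonneg_left ?_ (Nat.cast_nonneg _)
        refine mul_le_mul_of_nonneg_left (Real.exp_le_exp.2 (by linarith)) (sq_nonneg _)

theorem OVG_split (z : ℕ) : ∀ g : ℕ, 0 < g → ∃ g1 g2 : ℕ, 0 < g1 ∧ 0 < g2 ∧ g = g1 * g2 ∧
    (∀ p : ℕ, p.Prime → p ∣ g1 → p ≤ z) ∧ (∀ p : ℕ, p.Prime → p ∣ g2 → z < p) := by
  intro g
  induction g using Nat.recOnMul with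
  | zero => intro h; exact absurd h (lt_irrefl 0)
  | one => intro _; exact ⟨1, 1, one_pos, one_pos, rfl, fun p hp h => absurd (Nat.dvd_one.1 h)
      hp.one_lt.ne', fun p hp h => absurd (Nat.dvd_one.1 h) hp.one_lt.ne'⟩
  | prime q hq =>
    intro _
    by_cases h : q ≤ z
    · exact ⟨q, 1, hq.pos, one_pos, (mul_one _).symm,
        fun p hp hd => (Nat.prime_dvd_prime_iff_eq hp hq).1 hd ▸ h,
        fun p hp hd => absurd (Nat.dvd_one.1 hd) hp.one_lt.ne'⟩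
    · exact ⟨1, q, one_pos, hq.pos, (one_mul _).symm,
        fun p hp hd => absurd (Nat.dvd_one.1 hd) hp.one_lt.ne',
        fun p hp hd => (Nat.prime_dvd_prime_iff_eq hp hq).1 hd ▸ not_le.1 h⟩
  | mul a b ha hb =>
    intro hab
    obtain ⟨a1, a2, h1, h2, h3, h4, h5⟩ := ha (Nat.pos_of_mul_pos_right hab)
    obtain ⟨b1, b2, k1, k2, k3, k4, k5⟩ := hb (Nat.pos_of_mul_pos_left hab)
    refine ⟨a1 * b1, a2 * b2, Nat.mul_pos h1 k1, Nat.mul_pos h2 k2, by rw [h3, k3]; ring,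
      fun p hp hd => ?_, fun p hp hd => ?_⟩
    · rcases hp.dvd_mul.1 hd with h | h
      · exact h4 p hp h
      · exact k4 p hp h
    · rcases hp.dvd_mul.1 hd with h | h
      · exact h5 p hp h
      · exact k5 p hp h

theorem OVG_WT (z : ℕ) (B g g1 g2 u w : ℕ) (hg : 0 < g) (hu : 0 < u) (hw : 0 < w)
    (hgg : g = g1 * g2) (hs1 : ∀ p : ℕ, p.Prime → p ∣ g1 → p ≤ z)
    (hs2 : ∀ p : ℕ, p.Prime → p ∣ g2 → z < p) (K : ℝ) (hK : sL z (u * w) ≤ K) :
    (∏ p ∈ (g * u).primeFactors.filter (fun p => ¬ p ∣ B ∧ p ≤ z), (1 - 1 / (p : ℝ))) *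
      (∏ p ∈ g2.primeFactors.filter (fun p => ¬ p ∣ B), (1 - 1 / (p : ℝ))) ≤
      Real.exp (2 * K) * WT B (g * u) := by
  classical
  set R := g2.primeFactors.filter (fun p => ¬ p ∣ B) with hR
  set S := (g * u).primeFactors.filter (fun p => ¬ p ∣ B ∧ ¬ p ≤ z) with hS
  have hpos : ∀ n p : ℕ, p ∈ n.primeFactors → 0 ≤ 1 - 1 / (p : ℝ) := by
    intro n p hp
    have := Vale.Agent.P028EV.GOOD_prime_factor hp
    linarith [this.2]
  have hRS : R ⊆ S := by
    intro p hp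
    rw [hR, Finset.mem_filter, Nat.mem_primeFactors] at hp
    rw [hS, Finset.mem_filter, Nat.mem_primeFactors]
    refine ⟨⟨hp.1.1, ?_, (Nat.mul_pos hg hu).ne'⟩, hp.2, not_le.2 (hs2 p hp.1.1 hp.1.2.1)⟩
    rw [hgg]
    exact (hp.1.2.1.mul_left g1).mul_right u
  have hWT : WT B (g * u) =
      (∏ p ∈ (g * u).primeFactors.filter (fun p => ¬ p ∣ B ∧ p ≤ z), (1 - 1 / (p : ℝ))) *
      ∏ p ∈ S, (1 - 1 / (p : ℝ)) := by
    unfold WT
    rw [← Finset.prod_filter_mul_prod_filter_not ({p ∈ (g * u).primeFactors | ¬ p ∣ B})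
      (fun p => p ≤ z), Finset.filter_filter, Finset.filter_filter]
  rw [hWT, ← Finset.prod_sdiff hRS]
  set X := ∏ p ∈ (g * u).primeFactors.filter (fun p => ¬ p ∣ B ∧ p ≤ z), (1 - 1 / (p : ℝ))
    with hX
  set Y := ∏ p ∈ R, (1 - 1 / (p : ℝ)) with hY
  have hX0 : 0 ≤ X := Finset.prod_nonneg fun p hp => hpos _ p (Finset.mem_filter.1 hp).1
  have hY0 : 0 ≤ Y := Finset.prod_nonneg fun p hp => hpos _ p (Finset.mem_filter.1 hp).1
  have hE : Real.exp (-(2 * K)) ≤ ∏ p ∈ S \ R, (1 - 1 / (p : ℝ)) := by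
    calc Real.exp (-(2 * K)) ≤ Real.exp (∑ p ∈ S \ R, (-(2 * (1 / (p : ℝ))))) := by
          apply Real.exp_le_exp.2
          rw [Finset.sum_neg_distrib, ← Finset.mul_sum]
          have h2 : ∑ p ∈ S \ R, 1 / (p : ℝ) ≤ sL z (u * w) := by
            unfold sL
            refine Finset.sum_le_sum_of_subset_of_nonneg ?_ (fun _ _ _ => by positivity)
            intro p hp
            rw [Finset.mem_sdiff, hS, hR, Finset.mem_filter, Finset.mem_filter,
              Nat.mem_primeFactors, Nat.mem_primeFactors] at hp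
            obtain ⟨⟨⟨hpp, hpd, hp0⟩, hpB, hpz⟩, hpR⟩ := hp
            have hpg : ¬ p ∣ g := by
              intro hd
              rw [hgg] at hd
              rcases hpp.dvd_mul.1 hd with h | h
              · exact hpz (hs1 p hpp h)
              · exact hpR ⟨⟨hpp, h, fun h0 => by
                  rw [h0, mul_zero] at hgg; omega⟩, hpB⟩
            have hpu : p ∣ u := (hpp.dvd_mul.1 hpd).resolve_left hpg
            rw [Finset.mem_filter, Nat.mem_primeFactors]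
            refine ⟨⟨hpp, hpu.mul_right w, (Nat.mul_pos hu hw).ne'⟩, ?_⟩
            exact_mod_cast not_le.1 hpz
          linarith
      _ = ∏ p ∈ S \ R, Real.exp (-(2 * (1 / (p : ℝ)))) := Real.exp_sum _ _
      _ ≤ _ := Finset.prod_le_prod (fun _ _ => (Real.exp_pos _).le) fun p hp => by
          have hp' := (Finset.mem_filter.1 (Finset.mem_sdiff.1 hp).1).1
          have := Vale.Agent.P028EV.GOOD_prime_factor hp'
          exact Vale.Agent.P028EV.GOOD_exp_le this.1 this.2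
  have h3 : Real.exp (2 * K) * Real.exp (-(2 * K)) = 1 := by
    rw [← Real.exp_add]; simp
  calc X * Y = Real.exp (2 * K) * (X * (Real.exp (-(2 * K)) * Y)) := by
        linear_combination (-(X * Y)) * h3
    _ ≤ _ := by
      refine mul_le_mul_of_nonneg_left ?_ (Real.exp_pos _).le
      refine mul_le_mul_of_nonneg_left ?_ hX0
      exact mul_le_mul_of_nonneg_right hE hY0

theorem ovg (K : ℝ) (hK : 1 ≤ K) : ∃ C : ℝ, 1 ≤ C ∧ ∀ (γ : ℝ) (B : ℕ) (A : ℤ), 0 < B →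
    IsCoprime A (B : ℤ) → ∀ (ψ : ℕ → ℝ) (q r : ℕ), 0 < r → r < q →
    0 ≤ ψ q → 0 ≤ ψ r → ψ q < 1 / 2 → ψ r < 1 / 2 → ∀ x0 ℓ : ℝ, 0 < ℓ → ℓ ≤ 1 →
    1 / 2 ≤ Del ψ q r → GD K γ B A ψ q r →
    (volume (AT γ B A ψ q ∩ AT γ B A ψ r ∩ Set.Ico x0 (x0 + ℓ))).toReal
      ≤ C * (WT B q * ψ q) * (WT B r * ψ r) := by
  classical
  refine ⟨48 * (Real.exp (4 * K) * (Real.exp (2 * K) * Real.exp (2 * K))), ?_, ?_⟩
  · have h1 : 1 ≤ Real.exp (4 * K) := Real.one_le_exp (by linarith)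
    have h2 : 1 ≤ Real.exp (2 * K) := Real.one_le_exp (by linarith)
    nlinarith [mul_le_mul h1 (mul_le_mul h2 h2 (by norm_num) (by linarith)) (by norm_num)
      (by linarith)]
  intro γ B A hB hco ψ q r hr hrq h0 h0' h1 h1' x0 ℓ hℓ hℓ1 hDel hGD
  have hq : 0 < q := by omega
  obtain ⟨g, u, v, hg, hu, hv, huv, hqg, hrg, -, hu1, hv1⟩ :=
    Vale.Agent.P028EV.pair_cases hq hr
  have hgr : (0 : ℝ) < g := by exact_mod_cast hg
  have hur : (0 : ℝ) < u := by exact_mod_cast hu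
  have hvr : (0 : ℝ) < v := by exact_mod_cast hv
  have hvu : v < u := by
    rw [hqg, hrg] at hrq
    exact lt_of_mul_lt_mul_left hrq (Nat.zero_le g)
  have hDelE : Del ψ q r = (v : ℝ) * ψ q + (u : ℝ) * ψ r := by
    unfold Del; rw [← hu1, ← hv1]
  have hDmE : Dm ψ q r = max ((v : ℝ) * ψ q) ((u : ℝ) * ψ r) := by
    unfold Dm; rw [← hu1, ← hv1]
  have hhE : hh q r = (v : ℤ) - (u : ℤ) := by
    unfold hh; rw [← hu1, ← hv1]
  obtain ⟨hGD1, hGD2⟩ := hGD
  rw [← hu1, ← hv1] at hGD1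
  rw [hDelE, hhE] at hGD2
  rw [hDelE] at hDel
  set Δ := (v : ℝ) * ψ q + (u : ℝ) * ψ r with hΔ
  set z := zD ψ q r with hz
  have hDm : Dm ψ q r ≤ Δ := by
    rw [hDmE]
    exact max_le (by rw [hΔ]; linarith [mul_nonneg hur.le h0'])
      (by rw [hΔ]; linarith [mul_nonneg hvr.le h0])
  have hPle : ((primorial z : ℕ) : ℝ) ≤ 2 * Δ := by
    by_cases hL : Nat.log 4 ⌊Dm ψ q r⌋₊ ≤ 1
    · have hz1 : z = 1 := by
        rw [hz]; unfold zD; exact max_eq_left hL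
      rw [hz1]
      have : primorial 1 = 1 := by decide
      rw [this]
      push_cast
      linarith
    · have hz1 : z = Nat.log 4 ⌊Dm ψ q r⌋₊ := by
        rw [hz]; unfold zD; exact max_eq_right (by omega)
      have hfl : ⌊Dm ψ q r⌋₊ ≠ 0 := by
        intro h
        rw [h] at hL
        simp at hL
      have h2 : primorial z ≤ ⌊Dm ψ q r⌋₊ := by
        refine (primorial_le_four_pow z).trans ?_
        rw [hz1]
        exact Nat.pow_log_le_self 4 hfl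
      have h3 : ((primorial z : ℕ) : ℝ) ≤ ((⌊Dm ψ q r⌋₊ : ℕ) : ℝ) := by exact_mod_cast h2
      have h4 : ((⌊Dm ψ q r⌋₊ : ℕ) : ℝ) ≤ Dm ψ q r := by
        refine Nat.floor_le ?_
        rw [hDmE]
        exact le_max_of_le_left (by positivity)
      linarith
  set P := primorial z with hP
  have hPpos : 0 < P := primorial_pos z
  have hPr : (0 : ℝ) < P := by exact_mod_cast hPpos
  have hΔ0 : 0 ≤ Δ := by linarith
  set N := ⌈(2 * Δ + 1) / P⌉₊ with hN
  have hN1 : 2 * Δ + 1 ≤ N * P := by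
    have := Nat.le_ceil ((2 * Δ + 1) / P)
    rwa [div_le_iff₀ hPr] at this
  have hN2 : (N : ℝ) * P ≤ 6 * Δ := by
    have h2 : (N : ℝ) < (2 * Δ + 1) / P + 1 := Nat.ceil_lt_add_one (by positivity)
    have h3 : (N : ℝ) * P ≤ ((2 * Δ + 1) / P + 1) * P := mul_le_mul_of_nonneg_right h2.le hPr.le
    have h4 : ((2 * Δ + 1) / P + 1) * P = 2 * Δ + 1 + P := by field_simp
    linarith
  obtain ⟨x, y, hxy⟩ : ∃ x y : ℤ, (v : ℤ) * x - (u : ℤ) * y = 1 := by
    have : IsCoprime (v : ℤ) (u : ℤ) := (Nat.isCoprime_iff_coprime.2 huv).symm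
    obtain ⟨a, b, hab⟩ := this
    exact ⟨a, -b, by linarith⟩
  obtain ⟨g1, g2, hg1, hg2, hgg, hs1, hs2⟩ := OVG_split z g hg
  have hcop : Nat.Coprime g1 g2 := by
    refine Nat.coprime_of_dvd fun p hp hd1 hd2 => ?_
    have := hs1 p hp hd1
    have := hs2 p hp hd2
    omega
  set P1 := (g * u).primeFactors.filter (fun p => ¬ p ∣ B ∧ p ≤ z) with hP1
  set P2 := (g * v).primeFactors.filter (fun p => ¬ p ∣ B ∧ p ≤ z) with hP2
  set R := g2.primeFactors.filter (fun p => ¬ p ∣ B) with hR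
  have hdvdP : ∀ p, p.Prime → p ≤ z → p ∣ P := fun p hp hpz =>
    (hp.dvd_primorial_iff).2 hpz
  have hPP : ∀ w p : ℕ, p ∈ (g * w).primeFactors.filter (fun p => ¬ p ∣ B ∧ p ≤ z) →
      p.Prime ∧ p ∣ P ∧ p ∣ g1 * w ∧ ¬ p ∣ B ∧ p ∣ g * w := by
    intro w p hp
    rw [Finset.mem_filter, Nat.mem_primeFactors] at hp
    refine ⟨hp.1.1, hdvdP p hp.1.1 hp.2.2, ?_, hp.2.1, hp.1.2.1⟩
    have h5 := hp.1.2.1
    rw [hgg, mul_assoc] at h5
    rcases hp.1.1.dvd_mul.1 h5 with h | h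
    · exact h.mul_right w
    · rcases hp.1.1.dvd_mul.1 h with h' | h'
      · exact absurd (hs2 p hp.1.1 h') (not_lt.2 hp.2.2)
      · exact h'.mul_left g1
  set F : ℤ → ℝ := fun t => (((Finset.range g1).filter (fun k : ℕ =>
        (∀ p ∈ P1, ¬ ((p : ℤ) ∣ (B : ℤ) * (t * x + k * u) + A)) ∧
        (∀ p ∈ P2, ¬ ((p : ℤ) ∣ (B : ℤ) * (t * y + k * v) + A)))).card : ℝ) with hF
  set M : ℝ := g1 * P * (∏ p ∈ P1, (1 - 1 / (p : ℝ))) * ∏ p ∈ P2, (1 - 1 / (p : ℝ)) with hM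
  have hblock : ∀ τ : ℤ, ∑ t ∈ Finset.Ico τ (τ + P), F t = M := by
    intro τ
    refine Vale.Agent.P028EV.two_sided g1 u v P hg1 hPpos x y hxy P1 P2
      (fun p hp => ⟨(hPP u p hp).1, (hPP u p hp).2.1, (hPP u p hp).2.2.1⟩)
      (fun p hp => ⟨(hPP v p hp).1, (hPP v p hp).2.1, (hPP v p hp).2.2.1⟩) _ _ _ _ ?_ ?_ τ
    · intro p hp hd
      exact (hPP u p hp).2.2.2.1 (by exact_mod_cast hd)
    · intro p hp hd
      exact (hPP v p hp).2.2.2.1 (by exact_mod_cast hd)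
  have hcov := Vale.Agent.P028EV.GOOD_cover F P M hblock N ⌊-(γ * ((v : ℤ) - (u : ℤ) : ℤ)) - Δ⌋
  have hsub := Vale.Agent.P028EV.GOOD_Ts_sub γ ((v : ℤ) - (u : ℤ)) Δ P N hN1
  obtain ⟨Pr, hPr'⟩ : ∃ Pr : ℤ → ℤ → Prop, ∀ t k, Pr t k ↔
      (GT B A (g * u) (t * x + k * u) ∧ GT B A (g * v) (t * y + k * v)) := ⟨_, fun _ _ => Iff.rfl⟩
  set mn := min (ψ (g * u) / ((g * u : ℕ) : ℝ)) (ψ (g * v) / ((g * v : ℕ) : ℝ)) with hmn
  have hmeas := OVG_main γ B A ψ g u v hg hu hv (by rwa [← hqg]) (by rwa [← hrg])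
    (by rwa [← hqg]) x y hxy x0 ℓ hℓ1 Pr hPr' mn hmn
    (Ts γ ((v : ℤ) - (u : ℤ)) Δ) (by rw [hΔ, hqg, hrg])
  set c2 : ℝ := g2 * ((∏ p ∈ R, (1 - 1 / (p : ℝ))) ^ 2 * Real.exp (4 * K)) with hc2
  have hc20 : 0 ≤ c2 := by rw [hc2]; positivity
  have hterm : ∀ t ∈ Ts γ ((v : ℤ) - (u : ℤ)) Δ,
      (((Finset.range g).filter (fun k : ℕ => Pr t (k : ℤ))).card : ℝ) ≤ F t * c2 := by
    intro t ht
    by_cases hnt : ((v : ℤ) - u) * A + t * B = 0
    · have hempty : (Finset.range g).filter (fun k : ℕ => Pr t (k : ℤ)) = ∅ := by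
        rw [Finset.filter_eq_empty_iff]
        intro k _ hk
        rw [hPr'] at hk
        obtain ⟨p, hp, hpu⟩ := Nat.exists_prime_and_dvd (show u ≠ 1 by omega)
        refine hk.1 p hp (hpu.mul_left g) ?_
        have hpv : ¬ (p : ℤ) ∣ (v : ℤ) := by
          intro h
          have h' : p ∣ v := by exact_mod_cast h
          exact hp.one_lt.ne' (Nat.dvd_one.1 (huv ▸ Nat.dvd_gcd hpu h'))
        have e : (v : ℤ) * ((B : ℤ) * (t * x + k * u) + A) =
            (u : ℤ) * ((B : ℤ) * (t * y + k * v) + A) := by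
          linear_combination ((B : ℤ) * t) * hxy + hnt
        have hd : (p : ℤ) ∣ (v : ℤ) * ((B : ℤ) * (t * x + k * u) + A) := by
          rw [e]
          exact (Int.natCast_dvd_natCast.2 hpu).mul_right _
        exact ((Nat.prime_iff_prime_int.1 hp).dvd_or_dvd hd).resolve_left hpv
      rw [hempty, Finset.card_empty, Nat.cast_zero]
      exact mul_nonneg (Nat.cast_nonneg _) hc20
    · have hK2 := hGD2 t ht (by
        unfold nt; rw [hhE]; exact hnt)
      unfold nt at hK2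
      rw [hhE] at hK2
      have hN2' := OVG_N2 z g2 hs2 B A u v hu hv huv x y t hxy hnt K hGD1 hK2
      obtain ⟨W1, hW1⟩ : ∃ W1 : ℕ → Prop, ∀ k : ℕ, W1 k ↔
        ((∀ p ∈ P1, ¬ ((p : ℤ) ∣ (B : ℤ) * (t * x + k * u) + A)) ∧
        (∀ p ∈ P2, ¬ ((p : ℤ) ∣ (B : ℤ) * (t * y + k * v) + A))) := ⟨_, fun _ => Iff.rfl⟩
      obtain ⟨W2, hW2⟩ : ∃ W2 : ℕ → Prop, ∀ k : ℕ, W2 k ↔ (∀ p ∈ R,
        ¬ ((p : ℤ) ∣ (B : ℤ) * (t * x + k * u) + A) ∧
        ¬ ((p : ℤ) ∣ (B : ℤ) * (t * y + k * v) + A)) := ⟨_, fun _ => Iff.rfl⟩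
      have hshift : ∀ (p G w k : ℕ) (s : ℤ), p ∣ G * w →
          ((p : ℤ) ∣ (B : ℤ) * (s + ((k % G : ℕ) : ℤ) * w) + A) →
          (p : ℤ) ∣ (B : ℤ) * (s + (k : ℤ) * w) + A := by
        intro p G w k s hd h
        have e0 : (k : ℤ) = ((k % G : ℕ) : ℤ) + G * ((k / G : ℕ) : ℤ) := by
          exact_mod_cast (Nat.mod_add_div k G).symm
        have e : (B : ℤ) * (s + (k : ℤ) * w) + A =
            ((B : ℤ) * (s + ((k % G : ℕ) : ℤ) * w) + A) +
              ((G * w : ℕ) : ℤ) * (B * ((k / G : ℕ) : ℤ)) := by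
          rw [e0]; push_cast; ring
        rw [e]
        exact dvd_add h ((Int.natCast_dvd_natCast.2 hd).mul_right _)
      have hinj := OVG_inj2 g1 g2 hg1 hg2 hcop W1 W2
        (fun k hk => by
          rw [hW1] at hk ⊢
          exact ⟨fun p hp hd => hk.1 p hp (hshift p g1 u k _ (hPP u p hp).2.2.1 hd),
            fun p hp hd => hk.2 p hp (hshift p g1 v k _ (hPP v p hp).2.2.1 hd)⟩)
        (fun k hk => by
          rw [hW2] at hk ⊢
          intro p hp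
          have hpg : p ∣ g2 := Nat.dvd_of_mem_primeFactors (Finset.mem_filter.1 hp).1
          exact ⟨fun hd => (hk p hp).1 (hshift p g2 u k _ (hpg.mul_right u) hd),
            fun hd => (hk p hp).2 (hshift p g2 v k _ (hpg.mul_right v) hd)⟩)
      have hA : ((Finset.range g).filter (fun k : ℕ => Pr t (k : ℤ))).card ≤
          ((Finset.range g1).filter W1).card * ((Finset.range g2).filter W2).card := by
        refine le_trans (Finset.card_le_card ?_) hinj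
        intro k hk
        rw [Finset.mem_filter, hPr'] at hk
        rw [Finset.mem_filter, ← hgg, hW1, hW2]
        refine ⟨hk.1, ⟨fun p hp => hk.2.1 p (hPP u p hp).1 (hPP u p hp).2.2.2.2,
          fun p hp => hk.2.2 p (hPP v p hp).1 (hPP v p hp).2.2.2.2⟩, fun p hp => ?_⟩
        have hp' := Finset.mem_filter.1 hp
        have hpp := Nat.prime_of_mem_primeFactors hp'.1
        have hpg : p ∣ g := by
          rw [hgg]; exact (Nat.dvd_of_mem_primeFactors hp'.1).mul_left g1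
        exact ⟨hk.2.1 p hpp (hpg.mul_right u), hk.2.2 p hpp (hpg.mul_right v)⟩
      have hA' : (((Finset.range g).filter (fun k : ℕ => Pr t (k : ℤ))).card : ℝ) ≤
          (((Finset.range g1).filter W1).card : ℝ) * (((Finset.range g2).filter W2).card : ℝ) := by
        exact_mod_cast hA
      have hB1 : (((Finset.range g1).filter W1).card : ℝ) ≤ F t := by
        rw [hF]
        refine Nat.cast_le.2 (Finset.card_le_card ?_)
        intro k hk
        rw [Finset.mem_filter] at hk ⊢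
        exact ⟨hk.1, (hW1 k).1 hk.2⟩
      have hB2 : (((Finset.range g2).filter W2).card : ℝ) ≤ c2 := by
        refine le_trans (Nat.cast_le.2 (Finset.card_le_card ?_)) hN2'
        intro k hk
        rw [Finset.mem_filter] at hk ⊢
        exact ⟨hk.1, (hW2 k).1 hk.2⟩
      exact hA'.trans (mul_le_mul hB1 hB2 (Nat.cast_nonneg _) (Nat.cast_nonneg _))
  have hsum : ∑ t ∈ Ts γ ((v : ℤ) - (u : ℤ)) Δ,
      (((Finset.range g).filter (fun k : ℕ => Pr t (k : ℤ))).card : ℝ) ≤ (N * M) * c2 := by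
    rw [← hcov, Finset.sum_mul]
    refine (Finset.sum_le_sum hterm).trans
      (Finset.sum_le_sum_of_subset_of_nonneg hsub fun t _ _ =>
        mul_nonneg (Nat.cast_nonneg _) hc20)
  have hwt1 := OVG_WT z B g g1 g2 u v hg hu hv hgg hs1 hs2 K hGD1
  have hwt2 := OVG_WT z B g g1 g2 v u hg hv hu hgg hs1 hs2 K (by rwa [mul_comm v u])
  rw [← hP1, ← hR] at hwt1
  rw [← hP2, ← hR] at hwt2
  set A1 := ∏ p ∈ P1, (1 - 1 / (p : ℝ)) with hA1
  set A2 := ∏ p ∈ P2, (1 - 1 / (p : ℝ)) with hA2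
  set A3 := ∏ p ∈ R, (1 - 1 / (p : ℝ)) with hA3
  have hA10 : 0 ≤ A1 := Vale.Agent.P028EV.GOOD_le_prod fun p hp => (hPP u p hp).1.two_le
  have hA20 : 0 ≤ A2 := Vale.Agent.P028EV.GOOD_le_prod fun p hp => (hPP v p hp).1.two_le
  have hA30 : 0 ≤ A3 := Vale.Agent.P028EV.GOOD_le_prod fun p hp =>
    (Nat.prime_of_mem_primeFactors (Finset.mem_filter.1 hp).1).two_le
  have hmn0 : 0 ≤ mn := by
    rw [hmn]
    exact le_min (div_nonneg (by rwa [← hqg]) (Nat.cast_nonneg _))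
      (div_nonneg (by rwa [← hrg]) (Nat.cast_nonneg _))
  have hgm : (g : ℝ) * mn * Δ ≤ 2 * ψ q * ψ r := by
    have e1 : (g : ℝ) * mn ≤ ψ q / u := by
      have := min_le_left (ψ (g * u) / ((g * u : ℕ) : ℝ)) (ψ (g * v) / ((g * v : ℕ) : ℝ))
      rw [← hmn, ← hqg] at this
      calc (g : ℝ) * mn ≤ g * (ψ q / (q : ℝ)) := mul_le_mul_of_nonneg_left this hgr.le
        _ = ψ q / u := by
          rw [hqg]
          push_cast
          field_simp
    have e2 : (g : ℝ) * mn ≤ ψ r / v := by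
      have := min_le_right (ψ (g * u) / ((g * u : ℕ) : ℝ)) (ψ (g * v) / ((g * v : ℕ) : ℝ))
      rw [← hmn, ← hrg] at this
      calc (g : ℝ) * mn ≤ g * (ψ r / (r : ℝ)) := mul_le_mul_of_nonneg_left this hgr.le
        _ = ψ r / v := by
          rw [hrg]
          push_cast
          field_simp
    have e3 : (g : ℝ) * mn * (v * ψ q) ≤ ψ r / v * (v * ψ q) :=
      mul_le_mul_of_nonneg_right e2 (by positivity)
    have e4 : (g : ℝ) * mn * (u * ψ r) ≤ ψ q / u * (u * ψ r) :=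
      mul_le_mul_of_nonneg_right e1 (by positivity)
    have e5 : ψ r / v * (v * ψ q) = ψ q * ψ r := by field_simp
    have e6 : ψ q / u * (u * ψ r) = ψ q * ψ r := by field_simp
    rw [hΔ, mul_add]
    linarith
  have hggr : (g : ℝ) = g1 * g2 := by rw [hgg]; push_cast; ring
  have hmain : (volume (AT γ B A ψ (g * u) ∩ AT γ B A ψ (g * v) ∩
      Set.Ico x0 (x0 + ℓ))).toReal ≤ 4 * mn * ((N * M) * c2) := by
    refine le_trans ?_ (mul_le_mul_of_nonneg_left hsum (by positivity))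
    refine hmeas.trans (le_of_eq ?_)
    congr 1
  rw [← hqg, ← hrg] at hmain
  have hexp : 0 ≤ Real.exp (4 * K) := (Real.exp_pos _).le
  calc (volume (AT γ B A ψ q ∩ AT γ B A ψ r ∩ Set.Ico x0 (x0 + ℓ))).toReal
      ≤ 4 * mn * ((N * M) * c2) := hmain
    _ = (N * P) * (4 * mn * (g * (A1 * A3) * (A2 * A3) * Real.exp (4 * K))) := by
        rw [hM, hc2, hggr]; ring
    _ ≤ (6 * Δ) * (4 * mn * (g * (A1 * A3) * (A2 * A3) * Real.exp (4 * K))) := by
        refine mul_le_mul_of_nonneg_right hN2 ?_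
        positivity
    _ = (g * mn * Δ) * (24 * Real.exp (4 * K) * ((A1 * A3) * (A2 * A3))) := by ring
    _ ≤ (2 * ψ q * ψ r) * (24 * Real.exp (4 * K) * ((A1 * A3) * (A2 * A3))) := by
        refine mul_le_mul_of_nonneg_right hgm ?_
        positivity
    _ ≤ (2 * ψ q * ψ r) * (24 * Real.exp (4 * K) * ((Real.exp (2 * K) * WT B (g * u)) *
          (Real.exp (2 * K) * WT B (g * v)))) := by
        refine mul_le_mul_of_nonneg_left ?_ (by positivity)
        refine mul_le_mul_of_nonneg_left ?_ (by positivity)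
        exact mul_le_mul hwt1 hwt2 (by positivity)
          ((mul_nonneg hA10 hA30).trans hwt1)
    _ = 48 * (Real.exp (4 * K) * (Real.exp (2 * K) * Real.exp (2 * K))) *
          (WT B q * ψ q) * (WT B r * ψ r) := by
        rw [← hqg, ← hrg]; ring

end Vale.Agent.P028W
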