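import Vale.Agent.P028W.Defs3
import Vale.Agent.P028W.NDS
import Vale.Agent.P028W.BADS
import Vale.Agent.P028W.GB
import Vale.Agent.P028W.U1
import Vale.Agent.P028W.U2
import Vale.Agent.P028W.OVT
import Vale.Agent.P028W.OVC
import Vale.Agent.P028W.OVG

/-!
Module NE2: all pairs of one block. Let `K` be from `gb`. For `r < q`:
* `Del < 1/2`, not `NDc`: `0` (`ovt`). `NDc` and `Dm < X^(-cS)`: `ovt`, `vt ≤ 1`, `u2`. `NDc`, unbalanced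
  (`r1 X^(ε/4) ≤ q1`; note `Dm ≤ Del < 1/2 ≤ X^(ε/8)`): `ovt`, `u1`. `NDc`, balanced, `Dm ≥ X^(-cS)`: `ovc` with `z = 1`,
  `vt * WT = w`, `nds`.
* `Del ≥ 1/2`, `GD K`: `ovg`: `≤ C(K) mu q mu r`. Not `GD K`: by `gb`, `zD log(1+16 log X) ≤ c6 log X`, `Dm ≤ X^(ε/8)`
  (`gb2`); unbalanced: `ovt`, `u1`; balanced: `ovc` with `z = zD`, `bads`.
Total `≤ C M^(6/5) + C(K) M^2 + 3 X^(-c) M ≤ δ M` if `M ≤ ε0`, `X ≥ X0`.
-/

namespace Vale.Agent.P028W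

open Finset MeasureTheory
open Vale.Agent.P028EV (q1 r1 Del hh Ts Bd Ad Nd)
open Vale.Agent.P028KM (w mu Dm Bl FF MN Sb ex cl OK KO th Th MV MW)

/-- `X^(-c) ≤ d` for large `X` -/
theorem NE2_small (c d : ℝ) (hc : 0 < c) (hd : 0 < d) : ∃ X0 : ℝ, ∀ X : ℝ, X0 ≤ X → X ^ (-c) ≤ d := by
  have h1 := (tendsto_rpow_neg_atTop hc).eventually_le_const hd
  rw [Filter.eventually_atTop] at h1
  exact h1

theorem NE2_Dm_le (ψ : ℕ → ℝ) (q r : ℕ) (h0 : 0 ≤ ψ q) (h1 : 0 ≤ ψ r) : Dm ψ q r ≤ Del ψ q r := by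
  unfold Dm Del
  have h2 : 0 ≤ (r1 q r : ℝ) * ψ q := mul_nonneg (Nat.cast_nonneg _) h0
  have h3 : 0 ≤ (q1 q r : ℝ) * ψ r := mul_nonneg (Nat.cast_nonneg _) h1
  exact max_le (by linarith) (by linarith)

theorem NE2_Dm_nonneg (ψ : ℕ → ℝ) (q r : ℕ) (h0 : 0 ≤ ψ q) : 0 ≤ Dm ψ q r := by
  unfold Dm
  exact le_max_of_le_left (mul_nonneg (Nat.cast_nonneg _) h0)

theorem NE2_EX_nonneg (γ : ℝ) (B : ℕ) (A : ℤ) (ψ : ℕ → ℝ) (θ z : ℝ) (q r : ℕ) :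
    0 ≤ EX γ B A ψ θ z q r := by
  unfold EX
  exact Finset.sum_nonneg fun _ _ => (Real.exp_pos _).le

theorem NE2_mu_nonneg (ψ : ℕ → ℝ) (h : ∀ q, 0 ≤ ψ q) (q : ℕ) : 0 ≤ mu ψ q := by
  unfold mu w
  exact mul_nonneg (div_nonneg (Nat.cast_nonneg _) (Nat.cast_nonneg _)) (h q)

theorem NE2_vtmu (B q : ℕ) (ψ : ℕ → ℝ) : vt B q * (WT B q * ψ q) = mu ψ q := by
  unfold mu
  rw [← vt_mul B q]
  ring

open Classical in
theorem NE2_pt {ε X γ : ℝ} {B : ℕ} {A : ℤ} {ψ : ℕ → ℝ} {S : Finset ℕ} {K C0 : ℝ} (hε : 0 < ε)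
    (hX : 2 ≤ X) (hb : Blk2 ε X γ B A ψ S) (hC0 : 1 ≤ C0) {x0 ℓ : ℝ} (hℓ : 0 < ℓ) (hℓ1 : ℓ ≤ 1)
    {q r : ℕ} (hq : q ∈ S) (hr : r ∈ S)
    (hgb : r < q → c6 ε * Real.log X < (zD ψ q r : ℝ) * Real.log (1 + 16 * Real.log X) →
      GD K γ B A ψ q r)
    (hgb2 : (zD ψ q r : ℝ) * Real.log (1 + 16 * Real.log X) ≤ c6 ε * Real.log X →
      Dm ψ q r ≤ X ^ (ε / 8))
    (hovg : r < q → 1 / 2 ≤ Del ψ q r → GD K γ B A ψ q r →
      (volume (AT γ B A ψ q ∩ AT γ B A ψ r ∩ Set.Ico x0 (x0 + ℓ))).toReal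
        ≤ C0 * (WT B q * ψ q) * (WT B r * ψ r)) :
    (if r < q then vt B q * vt B r *
      (volume (AT γ B A ψ q ∩ AT γ B A ψ r ∩ Set.Ico x0 (x0 + ℓ))).toReal else 0) ≤
      C0 * (mu ψ q * mu ψ r) +
      (if r < q ∧ (r1 q r : ℝ) * X ^ (ε / 4) ≤ (q1 q r : ℝ) ∧ Dm ψ q r ≤ X ^ (ε / 8) then
        ψ q * ψ r * (16 + 20 / Dm ψ q r) else 0) +
      (if r < q ∧ NDc γ B A ψ q r ∧ Dm ψ q r < X ^ (-cS ε) then
        20 * ψ q * ψ r / Dm ψ q r else 0) +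
      2 * (if r < q ∧ (q1 q r : ℝ) < (r1 q r : ℝ) * X ^ (ε / 4) ∧
        X ^ (-cS ε) ≤ Dm ψ q r ∧ Del ψ q r < 1 / 2 then
          mu ψ q * mu ψ r / Dm ψ q r * EX γ B A ψ 2 1 q r else 0) +
      2 * (if r < q ∧ (q1 q r : ℝ) < (r1 q r : ℝ) * X ^ (ε / 4) ∧
        1 / 2 ≤ Del ψ q r ∧ ¬ GD K γ B A ψ q r ∧
        (zD ψ q r : ℝ) * Real.log (1 + 16 * Real.log X) ≤ c6 ε * Real.log X then
          (zD ψ q r : ℝ) ^ 2 * (mu ψ q * mu ψ r / Dm ψ q r) * EX γ B A ψ 2 (zD ψ q r) q r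
        else 0) := by
  have hψq := hb.psi0 q
  have hψr := hb.psi0 r
  have hDn : 0 ≤ Dm ψ q r := NE2_Dm_nonneg ψ q r hψq
  have hDD : Dm ψ q r ≤ Del ψ q r := NE2_Dm_le ψ q r hψq hψr
  have hmq := NE2_mu_nonneg ψ hb.psi0 q
  have hmr := NE2_mu_nonneg ψ hb.psi0 r
  have t0 : 0 ≤ C0 * (mu ψ q * mu ψ r) := by positivity
  have e1 : 0 ≤ ψ q * ψ r * (16 + 20 / Dm ψ q r) := by positivity
  have e2 : 0 ≤ 20 * ψ q * ψ r / Dm ψ q r := by positivity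
  have e3 : 0 ≤ mu ψ q * mu ψ r / Dm ψ q r * EX γ B A ψ 2 1 q r :=
    mul_nonneg (by positivity) (NE2_EX_nonneg _ _ _ _ _ _ _ _)
  have e4 : 0 ≤ (zD ψ q r : ℝ) ^ 2 * (mu ψ q * mu ψ r / Dm ψ q r) *
      EX γ B A ψ 2 (zD ψ q r) q r := mul_nonneg (by positivity) (NE2_EX_nonneg _ _ _ _ _ _ _ _)
  have t1 : 0 ≤ (if r < q ∧ (r1 q r : ℝ) * X ^ (ε / 4) ≤ (q1 q r : ℝ) ∧
      Dm ψ q r ≤ X ^ (ε / 8) then ψ q * ψ r * (16 + 20 / Dm ψ q r) else 0) := by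
    split_ifs
    · exact e1
    · exact le_rfl
  have t2 : 0 ≤ (if r < q ∧ NDc γ B A ψ q r ∧ Dm ψ q r < X ^ (-cS ε) then
      20 * ψ q * ψ r / Dm ψ q r else 0) := by
    split_ifs
    · exact e2
    · exact le_rfl
  have t3 : 0 ≤ (if r < q ∧ (q1 q r : ℝ) < (r1 q r : ℝ) * X ^ (ε / 4) ∧
      X ^ (-cS ε) ≤ Dm ψ q r ∧ Del ψ q r < 1 / 2 then
      mu ψ q * mu ψ r / Dm ψ q r * EX γ B A ψ 2 1 q r else 0) := by
    split_ifs
    · exact e3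
    · exact le_rfl
  have t4 : 0 ≤ (if r < q ∧ (q1 q r : ℝ) < (r1 q r : ℝ) * X ^ (ε / 4) ∧
      1 / 2 ≤ Del ψ q r ∧ ¬ GD K γ B A ψ q r ∧
      (zD ψ q r : ℝ) * Real.log (1 + 16 * Real.log X) ≤ c6 ε * Real.log X then
      (zD ψ q r : ℝ) ^ 2 * (mu ψ q * mu ψ r / Dm ψ q r) * EX γ B A ψ 2 (zD ψ q r) q r
      else 0) := by
    split_ifs
    · exact e4
    · exact le_rfl
  by_cases hrq : r < q
  swap
  · rw [if_neg hrq]
    linarith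
  rw [if_pos hrq]
  have hr0 : 0 < r := by
    have h1 := hb.lo r hr
    have h2 : (0 : ℝ) < r := by linarith
    exact_mod_cast h2
  have hq2 := hb.psih q hq
  have hr2 := hb.psih r hr
  set V := (volume (AT γ B A ψ q ∩ AT γ B A ψ r ∩ Set.Ico x0 (x0 + ℓ))).toReal with hV
  have hV0 : 0 ≤ V := ENNReal.toReal_nonneg
  have hvq0 := vt_nonneg B q
  have hvr0 := vt_nonneg B r
  have hv1 : vt B q * vt B r * V ≤ V := by
    have h1 : vt B q * vt B r ≤ 1 := mul_le_one₀ (vt_le_one B q) hvr0 (vt_le_one B r)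
    calc vt B q * vt B r * V ≤ 1 * V := mul_le_mul_of_nonneg_right h1 hV0
      _ = V := one_mul V
  have hovt := ovt γ B A ψ q r hr0 hrq hψq hψr hq2 hr2 x0 ℓ hℓ hℓ1
  rw [← hV] at hovt
  have hovc := fun z hz => ovc γ B A hb.hB hb.co ψ q r hr0 hrq hψq hψr hq2 hr2 x0 ℓ hℓ hℓ1 z hz
  rw [← hV] at hovc
  have hvc : ∀ z : ℕ, 1 ≤ z → vt B q * vt B r * V ≤
      2 * ((z : ℝ) ^ 2 * (mu ψ q * mu ψ r / Dm ψ q r) * EX γ B A ψ 2 z q r) := by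
    intro z hz
    refine (mul_le_mul_of_nonneg_left (hovc z hz) (mul_nonneg hvq0 hvr0)).trans (le_of_eq ?_)
    rw [← NE2_vtmu B q ψ, ← NE2_vtmu B r ψ]
    ring
  by_cases hD : Del ψ q r < 1 / 2
  · rw [if_pos hD] at hovt
    by_cases hN : NDc γ B A ψ q r
    · rw [if_pos hN] at hovt
      by_cases hs : Dm ψ q r < X ^ (-cS ε)
      · rw [if_pos (⟨hrq, hN, hs⟩ : r < q ∧ NDc γ B A ψ q r ∧ Dm ψ q r < X ^ (-cS ε))]
        linarith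
      · push Not at hs
        by_cases hbal : (q1 q r : ℝ) < (r1 q r : ℝ) * X ^ (ε / 4)
        · have h1 := hvc 1 le_rfl
          rw [if_pos (⟨hrq, hbal, hs, hD⟩ : r < q ∧ (q1 q r : ℝ) < (r1 q r : ℝ) * X ^ (ε / 4) ∧
            X ^ (-cS ε) ≤ Dm ψ q r ∧ Del ψ q r < 1 / 2)]
          have h2 : 2 * (((1 : ℕ) : ℝ) ^ 2 * (mu ψ q * mu ψ r / Dm ψ q r) *
              EX γ B A ψ 2 ((1 : ℕ) : ℝ) q r)
              = 2 * (mu ψ q * mu ψ r / Dm ψ q r * EX γ B A ψ 2 1 q r) := by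
            rw [Nat.cast_one]
            ring
          linarith
        · push Not at hbal
          have h1 : Dm ψ q r ≤ X ^ (ε / 8) := by
            have h2 : (1 : ℝ) ≤ X ^ (ε / 8) := Real.one_le_rpow (by linarith) (by positivity)
            linarith
          rw [if_pos (⟨hrq, hbal, h1⟩ : r < q ∧ (r1 q r : ℝ) * X ^ (ε / 4) ≤ (q1 q r : ℝ) ∧
            Dm ψ q r ≤ X ^ (ε / 8))]
          have h3 : 20 * ψ q * ψ r / Dm ψ q r ≤ ψ q * ψ r * (16 + 20 / Dm ψ q r) := by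
            have h4 : ψ q * ψ r * (16 + 20 / Dm ψ q r)
                = 16 * (ψ q * ψ r) + 20 * ψ q * ψ r / Dm ψ q r := by ring
            have h5 : 0 ≤ ψ q * ψ r := mul_nonneg hψq hψr
            linarith
          linarith
    · rw [if_neg hN] at hovt
      linarith
  · rw [if_neg hD] at hovt
    push Not at hD
    by_cases hG : GD K γ B A ψ q r
    · have h1 := hovg hrq hD hG
      have h2 : vt B q * vt B r * V ≤ C0 * (mu ψ q * mu ψ r) := by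
        refine (mul_le_mul_of_nonneg_left h1 (mul_nonneg hvq0 hvr0)).trans (le_of_eq ?_)
        rw [← NE2_vtmu B q ψ, ← NE2_vtmu B r ψ]
        ring
      linarith
    · have hz : (zD ψ q r : ℝ) * Real.log (1 + 16 * Real.log X) ≤ c6 ε * Real.log X := by
        by_contra hcon
        push Not at hcon
        exact hG (hgb hrq hcon)
      have h1 := hgb2 hz
      by_cases hbal : (q1 q r : ℝ) < (r1 q r : ℝ) * X ^ (ε / 4)
      · have h2 := hvc (zD ψ q r) (le_max_left _ _)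
        rw [if_pos (⟨hrq, hbal, hD, hG, hz⟩ : r < q ∧
          (q1 q r : ℝ) < (r1 q r : ℝ) * X ^ (ε / 4) ∧ 1 / 2 ≤ Del ψ q r ∧ ¬ GD K γ B A ψ q r ∧
          (zD ψ q r : ℝ) * Real.log (1 + 16 * Real.log X) ≤ c6 ε * Real.log X)]
        linarith
      · push Not at hbal
        rw [if_pos (⟨hrq, hbal, h1⟩ : r < q ∧ (r1 q r : ℝ) * X ^ (ε / 4) ≤ (q1 q r : ℝ) ∧
          Dm ψ q r ≤ X ^ (ε / 8))]
        have h3 : 16 * ψ q * ψ r ≤ ψ q * ψ r * (16 + 20 / Dm ψ q r) := by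
          have h4 : ψ q * ψ r * (16 + 20 / Dm ψ q r)
              = 16 * ψ q * ψ r + ψ q * ψ r * (20 / Dm ψ q r) := by ring
          have h5 : 0 ≤ ψ q * ψ r * (20 / Dm ψ q r) := by positivity
          linarith
        linarith

theorem ne2 (ε : ℝ) (hε : 0 < ε) (hε1 : ε ≤ 1) (δ : ℝ) (hδ : 0 < δ) :
    ∃ ε0 : ℝ, 0 < ε0 ∧ ∃ X0 : ℝ, 2 ≤ X0 ∧
    ∀ (X γ : ℝ) (B : ℕ) (A : ℤ) (ψ : ℕ → ℝ) (S : Finset ℕ) (x0 ℓ : ℝ), X0 ≤ X →
    Blk2 ε X γ B A ψ S → 0 < ℓ → ℓ ≤ 1 → ∑ q ∈ S, mu ψ q ≤ ε0 →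
    ∑ q ∈ S, ∑ r ∈ S with r < q, vt B q * vt B r *
      (volume (AT γ B A ψ q ∩ AT γ B A ψ r ∩ Set.Ico x0 (x0 + ℓ))).toReal
      ≤ δ * (∑ q ∈ S, mu ψ q) := by
  classical
  obtain ⟨K, hK, Xg, hXg, hgb⟩ := gb ε hε hε1
  obtain ⟨Xg2, hXg2, hgb2⟩ := gb2 ε hε hε1
  obtain ⟨C0, hC0, hovg⟩ := ovg K hK
  obtain ⟨c1, hc1, X1, hX1, hu1⟩ := u1 ε hε hε1
  obtain ⟨c2, hc2, X2, hX2, hu2⟩ := u2 ε hε hε1
  obtain ⟨C3, hC3, X3, hX3, hnds⟩ := nds ε hε hε1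
  obtain ⟨C4, hC4, X4, hX4, hbads⟩ := bads ε hε hε1
  obtain ⟨X5, hX5⟩ := NE2_small c1 (δ / 4) hc1 (by positivity)
  obtain ⟨X6, hX6⟩ := NE2_small c2 (δ / 4) hc2 (by positivity)
  have hCpos : 0 < 2 * C3 + 2 * C4 := by linarith
  have hC0pos : 0 < C0 := by linarith
  set η := δ / (4 * (2 * C3 + 2 * C4)) with hη
  have hηpos : 0 < η := by positivity
  refine ⟨min (δ / (4 * C0)) (η ^ (5 : ℕ)), lt_min (by positivity) (by positivity),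
    max Xg (max Xg2 (max X1 (max X2 (max X3 (max X4 (max X5 X6)))))), le_max_of_le_left hXg, ?_⟩
  intro X γ B A ψ S x0 ℓ hX hb hℓ hℓ1 hM
  simp only [max_le_iff] at hX
  obtain ⟨hxg, hxg2, hx1, hx2, hx3, hx4, hx5, hx6⟩ := hX
  have hX2 : 2 ≤ X := hXg.trans hxg
  set M := ∑ q ∈ S, mu ψ q with hMd
  have hM0 : 0 ≤ M := Finset.sum_nonneg fun q _ => NE2_mu_nonneg ψ hb.psi0 q
  have s1 := hu1 X γ B A ψ S hx1 hb
  have s2 := hu2 X γ B A ψ S hx2 hb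
  have s3 := hnds X γ B A ψ S hx3 hb
  have s4 := hbads X γ B A ψ S K hx4 hK hb
  simp only [Finset.sum_filter] at s1 s2 s3 s4
  simp only [Finset.sum_filter]
  rw [← hMd] at s1 s2 s3 s4
  have hsum : ∑ q ∈ S, ∑ r ∈ S, (if r < q then vt B q * vt B r *
      (volume (AT γ B A ψ q ∩ AT γ B A ψ r ∩ Set.Ico x0 (x0 + ℓ))).toReal else 0) ≤
      C0 * (M * M) + X ^ (-c1) * M + X ^ (-c2) * M + 2 * (C3 * M ^ (6 / 5 : ℝ)) +
        2 * (C4 * M ^ (6 / 5 : ℝ)) := by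
    have h0 : C0 * (M * M) = ∑ q ∈ S, ∑ r ∈ S, C0 * (mu ψ q * mu ψ r) := by
      rw [hMd, Finset.sum_mul_sum, Finset.mul_sum]
      exact Finset.sum_congr rfl fun q _ => Finset.mul_sum _ _ _
    refine le_trans (Finset.sum_le_sum fun q hq => Finset.sum_le_sum fun r hr =>
      NE2_pt (K := K) (C0 := C0) hε hX2 hb hC0 hℓ hℓ1 hq hr
        (fun hrq => hgb X γ B A ψ S hxg hb q hq r hr hrq)
        (fun h => hgb2 X ψ q r hxg2 h)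
        (fun hrq hD hG => hovg γ B A hb.hB hb.co ψ q r (by
          have h1 := hb.lo r hr
          have h2 : (0 : ℝ) < r := by linarith
          exact_mod_cast h2) hrq (hb.psi0 q) (hb.psi0 r) (hb.psih q hq) (hb.psih r hr) x0 ℓ hℓ
          hℓ1 hD hG)) ?_
    simp only [Finset.sum_add_distrib, ← Finset.mul_sum]
    simp only [← Finset.mul_sum] at h0
    refine add_le_add (add_le_add (add_le_add (add_le_add (le_of_eq h0.symm) ?_) ?_) ?_) ?_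
    · exact s1
    · exact s2
    · exact mul_le_mul_of_nonneg_left s3 (by norm_num)
    · exact mul_le_mul_of_nonneg_left s4 (by norm_num)
  refine hsum.trans ?_
  have hM1 : M ≤ δ / (4 * C0) := hM.trans (min_le_left _ _)
  have hM2 : M ≤ η ^ (5 : ℕ) := hM.trans (min_le_right _ _)
  have a1 : C0 * (M * M) ≤ δ / 4 * M := by
    have h1 : C0 * M ≤ δ / 4 := by
      calc C0 * M ≤ C0 * (δ / (4 * C0)) := mul_le_mul_of_nonneg_left hM1 hC0pos.le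
        _ = δ / 4 := by field_simp
    calc C0 * (M * M) = (C0 * M) * M := by ring
      _ ≤ δ / 4 * M := mul_le_mul_of_nonneg_right h1 hM0
  have a2 : X ^ (-c1) * M ≤ δ / 4 * M := mul_le_mul_of_nonneg_right (hX5 X hx5) hM0
  have a3 : X ^ (-c2) * M ≤ δ / 4 * M := mul_le_mul_of_nonneg_right (hX6 X hx6) hM0
  have a4 : M ^ (6 / 5 : ℝ) ≤ η * M := by
    rcases hM0.eq_or_lt with h | h
    · rw [← h, Real.zero_rpow (by norm_num), mul_zero]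
    · have h1 : M ^ (6 / 5 : ℝ) = M ^ (1 / 5 : ℝ) * M := by
        rw [← Real.rpow_add_one h.ne']
        norm_num
      have h2 : M ^ (1 / 5 : ℝ) ≤ η := by
        calc M ^ (1 / 5 : ℝ) ≤ (η ^ (5 : ℕ)) ^ (1 / 5 : ℝ) :=
              Real.rpow_le_rpow hM0 hM2 (by norm_num)
          _ = η := by
              rw [← Real.rpow_natCast, ← Real.rpow_mul hηpos.le]
              norm_num
      rw [h1]
      exact mul_le_mul_of_nonneg_right h2 hM0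
  have a5 : 2 * (C3 * M ^ (6 / 5 : ℝ)) + 2 * (C4 * M ^ (6 / 5 : ℝ)) ≤ δ / 4 * M := by
    have h1 : 2 * (C3 * M ^ (6 / 5 : ℝ)) + 2 * (C4 * M ^ (6 / 5 : ℝ))
        = (2 * C3 + 2 * C4) * M ^ (6 / 5 : ℝ) := by ring
    rw [h1]
    calc (2 * C3 + 2 * C4) * M ^ (6 / 5 : ℝ) ≤ (2 * C3 + 2 * C4) * (η * M) :=
          mul_le_mul_of_nonneg_left a4 hCpos.le
      _ = δ / 4 * M := by
          rw [hη]
          field_simp
  linarith

end Vale.Agent.P028W
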