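import Vale.Agent.P028W.Defs3
import Vale.Agent.P028W.SM2
import Vale.Agent.P028W.NE2
import Vale.Agent.P028W.BK2
import Vale.Agent.P028W.TY
import Vale.Agent.P028KM.CEW

/-!
Module LC2: local positivity; copy of Vale/Agent/P028KM/LC.lean: `bk2` instead of `bk`, `sm2` instead of `sm`, and the last sum
of `sm2` is `∑_k` over the blocks `S_k = {q ∈ S : bk q = k}` of the sum of `ne2` (with `ty`; the types are constant on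
`S_k` since `Bt, At` depend on `q` through `bk q`), `≤ δ ∑ mu` with `δ = ℓ/100`. Weights in `cew`: `v q = vt (Bt γ ε q) q`.
-/

namespace Vale.Agent.P028W

open Finset MeasureTheory
open Vale.Agent.P028EV (q1 r1 Del hh Ts Bd Ad Nd)
open Vale.Agent.P028KM (w mu Dm Bl FF MN Sb ex cl OK KO th Th MV MW)

theorem LC2_w_nonneg (q : ℕ) : 0 ≤ w q := by
  unfold w
  positivity

theorem LC2_w_le (q : ℕ) : w q ≤ 1 := by
  unfold w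
  rcases Nat.eq_zero_or_pos q with h | h
  · rw [h]
    simp
  · have h1 : (0 : ℝ) < q := by exact_mod_cast h
    rw [div_le_one h1]
    exact_mod_cast Nat.totient_le q

theorem LC2_ty {γ ε : ℝ} {q r : ℕ} (h : bk q = bk r) :
    Bt γ ε q = Bt γ ε r ∧ At γ ε q = At γ ε r := by
  unfold Bt At Ls
  rw [h]
  exact ⟨rfl, rfl⟩

theorem LC2_sum (ε : ℝ) (hε : 0 < ε) (hε1 : ε ≤ 1) (δ : ℝ) (hδ : 0 < δ) :
    ∃ ε0 : ℝ, 0 < ε0 ∧ ∃ N0 : ℕ, ∀ (γ : ℝ) (ψ : ℕ → ℝ) (S : Finset ℕ) (x0 ℓ : ℝ), 0 < ℓ → ℓ ≤ 1 →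
    (∀ q, 0 ≤ ψ q) → (∀ q ∈ S, N0 ≤ q ∧ 2 ≤ q ∧ ψ q < 1 / 2 ∧ ψ q ≤ (q : ℝ) ^ (-ε)) →
    (∀ k : ℕ, ∑ q ∈ S with bk q = k, mu ψ q ≤ ε0) →
    ∑ q ∈ S, ∑ r ∈ S with r < q ∧ bk q = bk r,
          vt (Bt γ ε q) q * vt (Bt γ ε r) r *
          (volume (AT γ (Bt γ ε q) (At γ ε q) ψ q ∩ AT γ (Bt γ ε r) (At γ ε r) ψ r ∩
            Set.Ico x0 (x0 + ℓ))).toReal ≤ δ * ∑ q ∈ S, mu ψ q := by
  obtain ⟨ε0, hε0, X0, hX0, hne⟩ := ne2 ε hε hε1 δ hδ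
  obtain ⟨N0, hN0⟩ := exists_nat_ge (X0 ^ 4)
  refine ⟨ε0, hε0, N0, fun γ ψ S x0 ℓ hℓ hℓ1 h0 hS hm => ?_⟩
  have hmaps : ∀ q ∈ S, bk q ∈ S.image bk := fun q hq => Finset.mem_image_of_mem _ hq
  rw [← Finset.sum_fiberwise_of_maps_to hmaps (fun q => ∑ r ∈ S with r < q ∧ bk q = bk r,
          vt (Bt γ ε q) q * vt (Bt γ ε r) r *
          (volume (AT γ (Bt γ ε q) (At γ ε q) ψ q ∩ AT γ (Bt γ ε r) (At γ ε r) ψ r ∩
            Set.Ico x0 (x0 + ℓ))).toReal),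
    ← Finset.sum_fiberwise_of_maps_to hmaps (fun q => mu ψ q), Finset.mul_sum]
  refine Finset.sum_le_sum fun k hk => ?_
  obtain ⟨q0, hq0, hk0⟩ := Finset.mem_image.1 hk
  have hb := ty γ ε hε ψ (S.filter (fun q => bk q = k)) k q0 hk0 h0 (fun q hq => by
    obtain ⟨h1, h2⟩ := Finset.mem_filter.1 hq
    obtain ⟨h3, h4, h5, h6⟩ := hS q h1
    exact ⟨h4, h2, h5, h6⟩)
  have hX : X0 ≤ (2 : ℝ) ^ (4 ^ k) := by
    have h1 := ((bk_iff q0 k (hS q0 hq0).2.1).1 hk0).2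
    have h2 : (N0 : ℝ) ≤ (q0 : ℝ) := by exact_mod_cast (hS q0 hq0).1
    have h3 : (q0 : ℝ) < ((2 : ℝ) ^ (4 ^ k)) ^ 4 := by
      rw [← pow_mul, ← pow_succ]
      exact_mod_cast h1
    by_contra h
    have h' : (2 : ℝ) ^ (4 ^ k) < X0 := not_le.1 h
    have h4 : ((2 : ℝ) ^ (4 ^ k)) ^ 4 ≤ X0 ^ 4 := pow_le_pow_left₀ (by positivity) h'.le 4
    linarith
  have hn := hne ((2 : ℝ) ^ (4 ^ k)) γ (Bt γ ε q0) (At γ ε q0) ψ
    (S.filter (fun q => bk q = k)) x0 ℓ hX hb hℓ hℓ1 (hm k)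
  refine le_trans (le_of_eq ?_) hn
  refine Finset.sum_congr rfl fun q hq => ?_
  obtain ⟨h1, h2⟩ := Finset.mem_filter.1 hq
  have hset : (S.filter (fun r => r < q ∧ bk q = bk r)) =
      (S.filter (fun q => bk q = k)).filter (fun r => r < q) := by
    ext r
    simp only [Finset.mem_filter]
    constructor
    · rintro ⟨a, b, c⟩
      exact ⟨⟨a, by rw [← c, h2]⟩, b⟩
    · rintro ⟨⟨a, c⟩, b⟩
      exact ⟨a, b, by rw [h2, c]⟩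
  rw [hset]
  refine Finset.sum_congr rfl fun r hr => ?_
  have hr2 := (Finset.mem_filter.1 (Finset.mem_filter.1 hr).1).2
  obtain ⟨e1, e2⟩ := LC2_ty (γ := γ) (ε := ε) (h2.trans hk0.symm)
  obtain ⟨e3, e4⟩ := LC2_ty (γ := γ) (ε := ε) (hr2.trans hk0.symm)
  rw [e1, e2, e3, e4]

theorem lc2 : ∃ c' : ℝ, 0 < c' ∧ ∀ (ε γ : ℝ) (ψ : ℕ → ℝ), 0 < ε → ε ≤ 1 →
    (∀ q, 0 ≤ ψ q) →
    ¬ Summable (fun q : ℕ => w q * min (ψ q) ((q : ℝ) ^ (-ε))) →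
    ∀ x0 ℓ : ℝ, 0 < ℓ → ℓ ≤ 1 → 0 ≤ x0 → x0 + ℓ ≤ 1 → ∀ N : ℕ,
      c' * ℓ ≤ (volume ((⋃ q ∈ {q : ℕ | N ≤ q}, AT γ (Bt γ ε q) (At γ ε q) ψ q) ∩
        Set.Ico x0 (x0 + ℓ))).toReal := by
  refine ⟨1 / 600, by norm_num, ?_⟩
  intro ε γ ψ hε hε1 hψ hdiv x0 ℓ hℓ hℓ1 _ _ N
  obtain ⟨ε0, hε0, N0, hnrs⟩ := LC2_sum ε hε hε1 (ℓ / 100) (by positivity)
  obtain ⟨Qs, hQs, hsm⟩ := sm2 ℓ hℓ hℓ1
  obtain ⟨Qb, hQb, hbd⟩ := AT_bounds ℓ hℓ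
  set ψ1 : ℕ → ℝ := fun q => min (ψ q) ((q : ℝ) ^ (-ε)) / 4 with hψ1
  have hpow0 : ∀ q : ℕ, 0 ≤ (q : ℝ) ^ (-ε) := fun q => Real.rpow_nonneg (Nat.cast_nonneg q) _
  have hpow1 : ∀ q : ℕ, (q : ℝ) ^ (-ε) ≤ 1 := by
    intro q
    rcases Nat.eq_zero_or_pos q with h | h
    · rw [h, Nat.cast_zero, Real.zero_rpow (by linarith)]
      norm_num
    · exact Real.rpow_le_one_of_one_le_of_nonpos (by exact_mod_cast h) (by linarith)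
  have hmin0 : ∀ q, 0 ≤ min (ψ q) ((q : ℝ) ^ (-ε)) := fun q => le_min (hψ q) (hpow0 q)
  have hψ10 : ∀ q, 0 ≤ ψ1 q := fun q => by
    have := hmin0 q
    simp only [hψ1]
    positivity
  have hψ1a : ∀ q, ψ1 q ≤ ψ q := fun q => by
    have := hmin0 q
    have h2 := min_le_left (ψ q) ((q : ℝ) ^ (-ε))
    simp only [hψ1]
    linarith
  have hψ1b : ∀ q : ℕ, ψ1 q ≤ (q : ℝ) ^ (-ε) := fun q => by
    have := hmin0 q
    have h2 := min_le_right (ψ q) ((q : ℝ) ^ (-ε))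
    simp only [hψ1]
    linarith
  have hψ1c : ∀ q : ℕ, ψ1 q ≤ 1 / 4 := fun q => by
    have h2 := min_le_right (ψ q) ((q : ℝ) ^ (-ε))
    have h3 := hpow1 q
    simp only [hψ1]
    linarith
  have hμ0 : ∀ q, 0 ≤ mu ψ1 q := fun q => mul_nonneg (LC2_w_nonneg q) (hψ10 q)
  have hμ1 : ∀ q, mu ψ1 q ≤ 1 := fun q => by
    unfold mu
    have h1 := hψ1c q
    exact mul_le_one₀ (LC2_w_le q) (hψ10 q) (by linarith)
  have hμdiv : ¬ Summable (mu ψ1) := by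
    intro hs
    apply hdiv
    have h4 := hs.mul_left 4
    refine h4.congr fun q => ?_
    simp only [mu, hψ1]
    ring
  obtain ⟨lam, S, hlam, hS, hM1, hM2, hblk, hsep⟩ := bk2 (mu ψ1) hμ0 hμ1 hμdiv ε0 hε0
    (max N (max N0 (max Qs Qb)))
  set ψ2 : ℕ → ℝ := fun q => lam q * ψ1 q with hψ2
  have hψ20 : ∀ q, 0 ≤ ψ2 q := fun q => mul_nonneg (hlam q).1 (hψ10 q)
  have hψ21 : ∀ q, ψ2 q ≤ ψ1 q := fun q => mul_le_of_le_one_left (hψ10 q) (hlam q).2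
  have hmu : ∀ q, mu ψ2 q = lam q * mu ψ1 q := fun q => by
    simp only [mu, hψ2]
    ring
  have hmule : ∀ q, mu ψ2 q ≤ ψ2 q := fun q => mul_le_of_le_one_left (hψ20 q) (LC2_w_le q)
  set M : ℝ := ∑ q ∈ S, mu ψ2 q with hM
  have hMeq : M = ∑ q ∈ S, lam q * mu ψ1 q := Finset.sum_congr rfl fun q _ => hmu q
  have hMa : 1 ≤ M := by rw [hMeq]; exact hM1
  have hMb : M ≤ 2 := by rw [hMeq]; exact hM2
  have hSb : ∀ q ∈ S, N ≤ q ∧ N0 ≤ q ∧ Qs ≤ q ∧ Qb ≤ q ∧ 2 ≤ q ∧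
      (q : ℝ) ^ (-(5 / 4) : ℝ) ≤ ψ2 q := by
    intro q hq
    obtain ⟨h1, h2, h3⟩ := hS q hq
    have a1 := le_max_left N (max N0 (max Qs Qb))
    have a2 := le_max_right N (max N0 (max Qs Qb))
    have a3 := le_max_left N0 (max Qs Qb)
    have a4 := le_max_right N0 (max Qs Qb)
    have a5 := le_max_left Qs Qb
    have a6 := le_max_right Qs Qb
    refine ⟨by omega, by omega, by omega, by omega, h2, ?_⟩
    rw [← hmu q] at h3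
    exact h3.trans (hmule q)
  have hhalf : ∀ q, ψ2 q < 1 / 2 := fun q => by
    have h1 := hψ21 q
    have h2 := hψ1c q
    linarith
  have hn2 := hnrs γ ψ2 S x0 ℓ hℓ hℓ1 hψ20
    (fun q hq => ⟨(hSb q hq).2.1, (hSb q hq).2.2.2.2.1, hhalf q, (hψ21 q).trans (hψ1b q)⟩)
    (fun k => by
      refine le_trans (le_of_eq ?_) (hblk k)
      exact Finset.sum_congr rfl fun q _ => hmu q)
  have hs2 := hsm γ ε ψ2 S x0 hψ20
    (fun q hq => ⟨(hSb q hq).2.2.1, (hSb q hq).2.2.2.2.2, hhalf q⟩) hsep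
  rw [← hM] at hn2 hs2
  have hupper : ∑ q ∈ S, ∑ r ∈ S, vt (Bt γ ε q) q * vt (Bt γ ε r) r *
      (volume (AT γ (Bt γ ε q) (At γ ε q) ψ2 q ∩ AT γ (Bt γ ε r) (At γ ε r) ψ2 r ∩
        Set.Ico x0 (x0 + ℓ))).toReal ≤ 600 * ℓ := by
    refine hs2.trans ?_
    have hM0 : 0 ≤ M := by linarith
    have e1 : ℓ * M ≤ 2 * ℓ := by nlinarith
    have e2 : ℓ * M ^ 2 ≤ 4 * ℓ := by
      have : M ^ 2 ≤ 4 := by nlinarith
      nlinarith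
    have e3 : ℓ / 100 * M ≤ ℓ / 50 := by nlinarith
    linarith
  -- lower bound of the first moment
  have hlower : ℓ ≤ ∑ q ∈ S, vt (Bt γ ε q) q *
      (volume (AT γ (Bt γ ε q) (At γ ε q) ψ2 q ∩ Set.Ico x0 (x0 + ℓ))).toReal := by
    have h1 : ℓ * M ≤ ∑ q ∈ S, vt (Bt γ ε q) q *
        (volume (AT γ (Bt γ ε q) (At γ ε q) ψ2 q ∩ Set.Ico x0 (x0 + ℓ))).toReal := by
      rw [hM, Finset.mul_sum]
      apply Finset.sum_le_sum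
      intro q hq
      have h5 := (hbd q (hSb q hq).2.2.2.1 γ (Bt γ ε q) (At γ ε q) ψ2 x0 (Bt_pos γ ε q)
        (Bt_cop γ ε q) (hψ20 q) (hhalf q)).1
      have h6 := mul_le_mul_of_nonneg_left h5 (vt_nonneg (Bt γ ε q) q)
      refine le_trans (le_of_eq ?_) h6
      unfold mu
      rw [← vt_mul (Bt γ ε q) q]
      ring
    nlinarith
  -- Chung-Erdos
  have hce := Vale.Agent.P028KM.cew (volume.restrict (Set.Ico x0 (x0 + ℓ))) S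
    (fun q => AT γ (Bt γ ε q) (At γ ε q) ψ2 q)
    (fun q _ => (AT_isOpen γ (Bt γ ε q) (At γ ε q) ψ2 q).measurableSet)
    (fun q => vt (Bt γ ε q) q)
  have hmeas : ∀ q, (volume.restrict (Set.Ico x0 (x0 + ℓ))) (AT γ (Bt γ ε q) (At γ ε q) ψ2 q) =
      volume (AT γ (Bt γ ε q) (At γ ε q) ψ2 q ∩ Set.Ico x0 (x0 + ℓ)) := fun q =>
    Measure.restrict_apply (AT_isOpen γ (Bt γ ε q) (At γ ε q) ψ2 q).measurableSet
  have hmeas2 : ∀ q r, (volume.restrict (Set.Ico x0 (x0 + ℓ)))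
      (AT γ (Bt γ ε q) (At γ ε q) ψ2 q ∩ AT γ (Bt γ ε r) (At γ ε r) ψ2 r) =
      volume (AT γ (Bt γ ε q) (At γ ε q) ψ2 q ∩ AT γ (Bt γ ε r) (At γ ε r) ψ2 r ∩
        Set.Ico x0 (x0 + ℓ)) := fun q r =>
    Measure.restrict_apply ((AT_isOpen γ (Bt γ ε q) (At γ ε q) ψ2 q).inter
      (AT_isOpen γ (Bt γ ε r) (At γ ε r) ψ2 r)).measurableSet
  have hmeasU : (volume.restrict (Set.Ico x0 (x0 + ℓ)))
      (⋃ q ∈ S, AT γ (Bt γ ε q) (At γ ε q) ψ2 q) =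
      volume ((⋃ q ∈ S, AT γ (Bt γ ε q) (At γ ε q) ψ2 q) ∩ Set.Ico x0 (x0 + ℓ)) :=
    Measure.restrict_apply (Finset.measurableSet_biUnion S fun q _ =>
      (AT_isOpen γ (Bt γ ε q) (At γ ε q) ψ2 q).measurableSet)
  simp only [hmeas, hmeas2, hmeasU] at hce
  have hsub : (⋃ q ∈ S, AT γ (Bt γ ε q) (At γ ε q) ψ2 q) ∩ Set.Ico x0 (x0 + ℓ) ⊆
      (⋃ q ∈ {q : ℕ | N ≤ q}, AT γ (Bt γ ε q) (At γ ε q) ψ q) ∩ Set.Ico x0 (x0 + ℓ) := by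
    apply Set.inter_subset_inter_left
    intro x hx
    rw [Set.mem_iUnion₂] at hx ⊢
    obtain ⟨q, hq, hxq⟩ := hx
    refine ⟨q, (hSb q hq).1, ?_⟩
    exact AT_mono ((hψ21 q).trans (hψ1a q)) hxq
  have hfin : volume ((⋃ q ∈ {q : ℕ | N ≤ q}, AT γ (Bt γ ε q) (At γ ε q) ψ q) ∩
      Set.Ico x0 (x0 + ℓ)) ≠ ⊤ :=
    ne_top_of_le_ne_top (by rw [Real.volume_Ico]; exact ENNReal.ofReal_ne_top)
      (measure_mono Set.inter_subset_right)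
  have hvol := ENNReal.toReal_mono hfin (measure_mono hsub)
  set V : ℝ := (volume ((⋃ q ∈ S, AT γ (Bt γ ε q) (At γ ε q) ψ2 q) ∩
    Set.Ico x0 (x0 + ℓ))).toReal with hV
  have hV0 : 0 ≤ V := ENNReal.toReal_nonneg
  have h1 : ℓ ^ 2 ≤ V * (600 * ℓ) := by
    calc ℓ ^ 2 ≤ (∑ q ∈ S, vt (Bt γ ε q) q *
          (volume (AT γ (Bt γ ε q) (At γ ε q) ψ2 q ∩ Set.Ico x0 (x0 + ℓ))).toReal) ^ 2 :=
          pow_le_pow_left₀ hℓ.le hlower 2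
      _ ≤ _ := hce
      _ ≤ V * (600 * ℓ) := mul_le_mul_of_nonneg_left hupper hV0
  have h2 : ℓ ≤ V * 600 := by
    have h3 : ℓ * ℓ ≤ V * 600 * ℓ := by
      calc ℓ * ℓ = ℓ ^ 2 := by ring
        _ ≤ V * (600 * ℓ) := h1
        _ = V * 600 * ℓ := by ring
    exact le_of_mul_le_mul_right h3 hℓ
  refine le_trans ?_ hvol
  linarith

end Vale.Agent.P028W
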