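import Vale.Agent.P028W.Defs3
import Vale.Agent.P028W.LC2
import Vale.Agent.P028EV.Full

/-!
Module RES2: final theorem; copy of Vale/Agent/P028KM/RES.lean.
-/

namespace Vale.Agent.P028W

open Finset MeasureTheory
open Vale.Agent.P028EV (q1 r1 Del hh Ts Bd Ad Nd)
open Vale.Agent.P028KM (w mu Dm Bl FF MN Sb ex cl OK KO th Th MV MW)

private theorem RES2_meas (γ : ℝ) (B : ℕ) (A : ℤ) (ψ : ℕ → ℝ) (q : ℕ) :
    MeasurableSet (AT γ B A ψ q) := by
  have h : AT γ B A ψ q = ⋃ a ∈ {a : ℤ | GT B A q a}, {x : ℝ | |(q : ℝ) * x - a - γ| < ψ q} := by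
    ext x
    simp [AT]
  rw [h]
  refine MeasurableSet.biUnion (Set.to_countable _) fun a _ => ?_
  exact measurableSet_lt (by fun_prop) measurable_const

private theorem RES2_gt (B : ℕ) (A : ℤ) (q : ℕ) (a : ℤ) (k : ℤ) (h : GT B A q a) :
    GT B A q (a + k * q) := by
  intro p hp hpq hd
  apply h p hp hpq
  have h1 : (p : ℤ) ∣ (q : ℤ) := by exact_mod_cast hpq
  have h2 : (p : ℤ) ∣ (B : ℤ) * k * q := Dvd.dvd.mul_left h1 _
  have h3 : (B : ℤ) * a + A = ((B : ℤ) * (a + k * q) + A) - (B : ℤ) * k * q := by ring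
  rw [h3]
  exact dvd_sub hd h2

private theorem RES2_per (γ : ℝ) (B : ℕ) (A : ℤ) (ψ : ℕ → ℝ) (q : ℕ) (x : ℝ) :
    x ∈ AT γ B A ψ q ↔ x + 1 ∈ AT γ B A ψ q := by
  constructor
  · rintro ⟨a, hg, ha⟩
    refine ⟨a + 1 * q, RES2_gt B A q a 1 hg, ?_⟩
    have : (q : ℝ) * (x + 1) - ((a + 1 * q : ℤ) : ℝ) - γ = (q : ℝ) * x - a - γ := by
      push_cast
      ring
    rw [this]
    exact ha
  · rintro ⟨a, hg, ha⟩
    refine ⟨a + (-1) * q, RES2_gt B A q a (-1) hg, ?_⟩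
    have : (q : ℝ) * x - ((a + (-1) * q : ℤ) : ℝ) - γ = (q : ℝ) * (x + 1) - a - γ := by
      push_cast
      ring
    rw [this]
    exact ha

theorem main2 (γ : ℝ) (ψ : ℕ → ℝ) (hψ : ∀ q, 0 ≤ ψ q)
    (ε : ℝ) (hε : 0 < ε)
    (hdiv : ¬ Summable (fun q : ℕ => (Nat.totient q : ℝ) / q * min (ψ q) ((q : ℝ) ^ (-ε)))) :
    volume {x : ℝ | {q : ℕ | 1 ≤ q ∧ ∃ a : ℤ, |(q : ℝ) * x - a - γ| < ψ q}.Infinite}ᶜ = 0 := by
  obtain ⟨c', hc', hlc⟩ := lc2
  have hε1 : 0 < min ε 1 := lt_min hε one_pos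
  have hdiv' : ¬ Summable (fun q : ℕ => w q * min (ψ q) ((q : ℝ) ^ (-(min ε 1)))) := by
    intro hs
    apply hdiv
    refine Summable.of_nonneg_of_le (fun q => ?_) (fun q => ?_) hs
    · have : 0 ≤ (q : ℝ) ^ (-ε) := Real.rpow_nonneg (Nat.cast_nonneg q) _
      exact mul_nonneg (by positivity) (le_min (hψ q) this)
    · unfold w
      rcases Nat.eq_zero_or_pos q with hq | hq
      · subst hq
        simp
      · have hq1 : (1 : ℝ) ≤ (q : ℝ) := by exact_mod_cast hq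
        refine mul_le_mul_of_nonneg_left ?_ (by positivity)
        refine min_le_min le_rfl ?_
        exact Real.rpow_le_rpow_of_exponent_le hq1 (neg_le_neg (min_le_left _ _))
  have hmain := Vale.Agent.P028EV.full_of_local
    (fun q => AT γ (Bt γ (min ε 1) q) (At γ (min ε 1) q) ψ q)
    (fun q => RES2_meas γ _ _ ψ q) (fun q x => RES2_per γ _ _ ψ q x) c' hc'
    (hlc (min ε 1) γ ψ hε1 (min_le_right _ _) hψ hdiv')
  refine measure_mono_null ?_ hmain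
  intro x hx hx2
  apply hx
  have hx3 : {q : ℕ | x ∈ AT γ (Bt γ (min ε 1) q) (At γ (min ε 1) q) ψ q}.Infinite := hx2
  have hsub : {q : ℕ | x ∈ AT γ (Bt γ (min ε 1) q) (At γ (min ε 1) q) ψ q} ⊆
      {q : ℕ | 1 ≤ q ∧ ∃ a : ℤ, |(q : ℝ) * x - a - γ| < ψ q} ∪ {0} := by
    intro q hq
    rcases Nat.eq_zero_or_pos q with h0 | h0
    · right
      exact h0
    · left
      obtain ⟨a, _, ha⟩ := hq
      exact ⟨h0, a, ha⟩
  have hinf := hx3.mono hsub
  rw [Set.infinite_union] at hinf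
  rcases hinf with h | h
  · exact h
  · exact absurd (Set.finite_singleton 0) h

end Vale.Agent.P028W
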